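import Vale.Agent.P146F.Var.Stein
import Vale.Agent.P146.Basic

/-!
P146: the GOE free energy fluctuates no more than the SK free energy plus a constant.
-/

namespace Vale.Agent.P146F

open MeasureTheory ProbabilityTheory Matrix Finset Function
open Vale.Agent.P150 (Dis gauss symmArray UpperPairs rowMap gauss_map_rowMap)
open Vale.Agent.P146 (Edge F H spin)
open Vale.Agent.P166N.Spectrum (spins)

variable {n : ℕ}

/-- The upper couplings of an array. -/
noncomputable def upper (A : Dis n) (p : Edge n) : ℝ := symmArray A p.1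

lemma gauss_map_upper (n : ℕ) :
    (gauss (Fin n × Fin n)).map (upper (n := n)) = gauss (Edge n) := by
  let R : UpperPairs n → Fin n × Fin n → ℝ := fun p k =>
    (if k = p.1 then 1 / √2 else 0) + (if k = (p.1.2, p.1.1) then 1 / √2 else 0)
  have hR : ∀ p q, ∑ k, R p k * R q k = if p = q then 1 else 0 := by
    rintro ⟨⟨a, b⟩, hab⟩ ⟨⟨c, d⟩, hcd⟩
    have hab' : a ≠ b := ne_of_lt hab
    rcases eq_or_ne ((a, b) : Fin n × Fin n) (c, d) with h | h
    · obtain ⟨rfl, rfl⟩ := Prod.ext_iff.1 h
      simp [R, mul_add, sum_add_distrib, hab', hab'.symm]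
      rw [← sq, inv_pow, Real.sq_sqrt (by norm_num)]
      norm_num
    · have hne : ¬ (a = d ∧ b = c) := fun h' => by
        obtain ⟨rfl, rfl⟩ := h'
        exact lt_asymm hab hcd
      have n1 : ((c, d) : Fin n × Fin n) ≠ (a, b) := h.symm
      have n2 : ((d, c) : Fin n × Fin n) ≠ (a, b) := fun e =>
        hne ⟨(Prod.ext_iff.1 e).1.symm, (Prod.ext_iff.1 e).2.symm⟩
      have n3 : ((c, d) : Fin n × Fin n) ≠ (b, a) := fun e =>
        hne ⟨(Prod.ext_iff.1 e).2.symm, (Prod.ext_iff.1 e).1.symm⟩
      have n4 : ((d, c) : Fin n × Fin n) ≠ (b, a) := fun e =>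
        h (Prod.ext (Prod.ext_iff.1 e).2.symm (Prod.ext_iff.1 e).1.symm)
      rw [if_neg fun e => h (congrArg Subtype.val e)]
      simp only [R, mul_add, sum_add_distrib, mul_ite, mul_zero, sum_ite_eq', mem_univ, if_true,
        n1, n2, n3, n4, if_false, zero_mul, add_zero]
  have e : rowMap R = upper (n := n) := by
    funext A p
    simp [rowMap, R, upper, symmArray, add_mul, sum_add_distrib]
    ring
  rw [← e]
  exact gauss_map_rowMap R hR

lemma sum_split (f : Fin n → Fin n → ℝ) (hf : ∀ i j, f i j = f j i) :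
    ∑ i, ∑ j, f i j = ∑ i, f i i + 2 * ∑ p : Edge n, f p.1.1 p.1.2 := by
  have e : ∑ p : Edge n, f p.1.1 p.1.2 = ∑ i, ∑ j, if i < j then f i j else 0 := by
    rw [← Fintype.sum_prod_type (f := fun p : Fin n × Fin n => if p.1 < p.2 then f p.1 p.2 else 0),
      ← sum_filter]
    exact (sum_subtype (univ.filter fun p : Fin n × Fin n => p.1 < p.2) (fun p => by simp)
      fun p => f p.1 p.2).symm
  have e2 : ∑ i, ∑ j, (if i < j then f i j else 0) = ∑ i, ∑ j, (if j < i then f i j else 0) := by
    rw [sum_comm]
    exact sum_congr rfl fun i _ => sum_congr rfl fun j _ => by rw [hf]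
  rw [e, two_mul]
  nth_rewrite 2 [e2]
  simp only [← sum_add_distrib]
  refine sum_congr rfl fun i _ => ?_
  rw [show f i i = ∑ j, if i = j then f i j else 0 by simp, ← sum_add_distrib]
  refine sum_congr rfl fun j _ => ?_
  rcases lt_trichotomy i j with h | h | h
  · simp [h, h.ne, h.not_gt]
  · subst h; simp
  · simp [h, h.ne', h.not_gt]

lemma qform_goe_eq (A : Dis n) (σ : Fin n → Bool) :
    qform (goe A) σ = 2 * H (upper A) σ + (goe A).trace := by
  have hsp : ∀ i, spins σ i = spin (σ i) := fun i => rfl
  rw [qform_eq, sum_split _ fun i j => by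
    rw [show goe A i j = goe A j i from (congrFun (congrFun (goe_transpose A) j) i)]; ring, add_comm]
  congr 1
  · rw [H, mul_sum]
    simp only [mul_sum, hsp, upper, symmArray, goe, Matrix.of_apply]
    refine sum_congr rfl fun p _ => ?_
    rw [Real.sqrt_mul (by norm_num : (0 : ℝ) ≤ 2)]
    ring
  · refine sum_congr rfl fun i _ => ?_
    rw [Matrix.diag_apply, hsp, mul_comm, ← mul_assoc, ← sq, Vale.Agent.P146.spin_sq, one_mul]

lemma freeE_eq (β : ℝ) (A : Dis n) :
    freeE β A = F β (upper A) + β / 2 * (goe A).trace := by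
  simp only [freeE, zsum, qform_goe_eq, mul_add, Real.exp_add, ← sum_mul]
  rw [Real.log_mul (sum_pos (fun _ _ => Real.exp_pos _) univ_nonempty).ne' (Real.exp_pos _).ne',
    Real.log_exp, F]
  congr 2
  exact sum_congr rfl fun σ _ => by ring_nf

lemma integral_trace_sq (hn : 0 < n) :
    ∫ A : Dis n, (goe A).trace ^ 2 ∂gauss (Fin n × Fin n) = 2 := by
  have h := stein_pow hn 0 (G := fun _ : Dis n => (1 : Matrix (Fin n) (Fin n) ℝ))
    (nice_trace_pow (n := n) 1) (fun a b => Nice.const _) fun A a b =>
      (hasDerivAt_trace_pow A a b 1).congr_deriv (by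
        simp [Matrix.one_apply, eq_comm (a := b) (b := a), two_mul]
        split_ifs <;> norm_num)
  have hn' : (n : ℝ) ≠ 0 := Nat.cast_ne_zero.2 hn.ne'
  have : IsProbabilityMeasure (gauss (Fin n × Fin n)) := by unfold Vale.Agent.P150.gauss; infer_instance
  simpa [psi, sq, Matrix.trace_one, hn'] using h

/-- The GOE free energy fluctuates at most twice as much, up to a constant. -/
theorem variance_freeE_le (hn : 0 < n) (β : ℝ) :
    variance (freeE (n := n) β) (gauss (Fin n × Fin n)) ≤
      2 * variance (fun g : Edge n → ℝ => F β g) (gauss (Edge n)) + β ^ 2 := by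
  set γ := gauss (Fin n × Fin n)
  have hP : IsProbabilityMeasure γ := by unfold γ Vale.Agent.P150.gauss; infer_instance
  set m := ∫ g, F β g ∂gauss (Edge n)
  have hFc : Continuous (F (n := n) β) := by
    rw [show F (n := n) β = fun g => Vale.Agent.P146.G β g + (n : ℝ) * Real.log 2 from
      funext fun g => (sub_add_cancel _ _).symm]
    exact (Vale.Agent.P146.continuous_G β).add continuous_const
  have hup : Measurable (upper (n := n)) := by unfold upper symmArray; fun_prop
  have ht : Nice fun A : Dis n => (goe A).trace := by simpa using nice_trace_pow (n := n) 1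
  have hu : Nice fun A : Dis n => F β (upper A) := by
    have := (nice_freeE (n := n) β).sub (ht.const_mul (β / 2))
    simpa [freeE_eq] using this
  have hvF : variance (fun g : Edge n → ℝ => F β g) (gauss (Edge n)) =
      ∫ A, (F β (upper A) - m) ^ 2 ∂γ := by
    rw [variance_eq_integral hFc.aemeasurable, ← gauss_map_upper n,
      integral_map (φ := upper (n := n)) hup.aemeasurable
        ((by fun_prop : Continuous fun g => (F β g - ∫ x, F β x ∂_) ^ 2).aestronglyMeasurable)]
    simp only [gauss_map_upper, m, γ]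
  rw [hvF, ← variance_sub_const (nice_freeE β).1.aestronglyMeasurable m]
  refine (variance_le_expectation_sq ((nice_freeE β).1.sub continuous_const).aestronglyMeasurable).trans ?_
  have i1 : Integrable (fun A => 2 * (F β (upper A) - m) ^ 2) γ :=
    (((hu.sub (Nice.const m)).mul (hu.sub (Nice.const m))).const_mul 2).integrable.congr
      (ae_of_all _ fun A => by ring)
  have i2 : Integrable (fun A => β ^ 2 / 2 * (goe A).trace ^ 2) γ :=
    ((ht.mul ht).const_mul (β ^ 2 / 2)).integrable.congr (ae_of_all _ fun A => by ring)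
  refine (integral_mono_of_nonneg (ae_of_all _ fun A => sq_nonneg _) (i1.add i2)
    (ae_of_all _ fun A => ?_)).trans_eq ?_
  · simp only [Pi.pow_apply, Pi.sub_apply, Pi.add_apply, freeE_eq]
    have e : β ^ 2 / 2 * (goe A).trace ^ 2 = 2 * (β / 2 * (goe A).trace) ^ 2 := by ring
    rw [e]
    have := two_mul_le_add_sq (F β (upper A) - m) (β / 2 * (goe A).trace)
    linarith [show (F β (upper A) + β / 2 * (goe A).trace - m) ^ 2 = (F β (upper A) - m) ^ 2 +
      2 * (F β (upper A) - m) * (β / 2 * (goe A).trace) + (β / 2 * (goe A).trace) ^ 2 by ring]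
  · simp only [Pi.add_apply]
    rw [integral_add i1 i2, integral_const_mul, integral_const_mul, integral_trace_sq hn]
    ring

end Vale.Agent.P146F
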