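import Vale.Agent.P146F.Var.Stein

/-!
P146: the pressure per inverse temperature is Lipschitz in the temperature, for every coupling matrix.
-/

namespace Vale.Agent.P146F

open Finset Real
open Vale.Agent.P166N.Spectrum (jPress spins)

variable {n : ℕ}

lemma jPress_eq (β : ℝ) (J : Matrix (Fin n) (Fin n) ℝ) :
    jPress β J = (n : ℝ)⁻¹ * (Real.log (zsum β J) - n * Real.log 2) := by
  have h : jPress β J = (n : ℝ)⁻¹ * Real.log (((2 : ℝ) ^ n)⁻¹ * zsum β J) := rfl
  rw [h, Real.log_mul (by positivity) (zsum_pos β J).ne', Real.log_inv, Real.log_pow]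
  ring

/-- Monotonicity of the pressure per inverse temperature. -/
theorem jPress_ratio_mono {β β' : ℝ} (hβ : 0 < β) (h : β ≤ β') (J : Matrix (Fin n) (Fin n) ℝ) :
    jPress β J / β ≤ jPress β' J / β' := by
  have hp : 1 ≤ β' / β := by rw [le_div_iff₀ hβ, one_mul]; exact h
  set a : (Fin n → Bool) → ℝ := fun σ => Real.exp (β / 2 * qform J σ) with ha
  have hap : ∀ σ, a σ ^ (β' / β) = Real.exp (β' / 2 * qform J σ) := fun σ => by
    rw [ha, ← Real.exp_mul]; congr 1; field_simp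
  have h2 : ((2 : ℝ) ^ n)⁻¹ * zsum β J = ∑ σ, ((2 : ℝ) ^ n)⁻¹ * a σ := by rw [← mul_sum]; rfl
  have hm := Real.rpow_arith_mean_le_arith_mean_rpow univ (fun _ : Fin n → Bool => ((2 : ℝ) ^ n)⁻¹) a
    (fun _ _ => by positivity) (by simp) (fun σ _ => (Real.exp_pos _).le) hp
  simp only [hap, ← h2] at hm
  rw [← mul_sum] at hm
  have hpos : ∀ γ : ℝ, 0 < ((2 : ℝ) ^ n)⁻¹ * zsum γ J := fun γ => mul_pos (by positivity) (zsum_pos γ J)
  have hl := Real.log_le_log (Real.rpow_pos_of_pos (hpos β) _) hm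
  rw [Real.log_rpow (hpos β)] at hl
  have hb' : 0 < β' := hβ.trans_le h
  have e : ∀ γ : ℝ, jPress γ J = (n : ℝ)⁻¹ * Real.log (((2 : ℝ) ^ n)⁻¹ * zsum γ J) := fun γ => rfl
  rw [e, e, div_le_div_iff₀ hβ hb', mul_assoc, mul_assoc]
  refine mul_le_mul_of_nonneg_left ?_ (by positivity)
  rw [div_mul_eq_mul_div, div_le_iff₀ hβ] at hl
  exact (mul_comm _ _).trans_le hl

/-- The pressure per inverse temperature grows at most like the entropy. -/
theorem jPress_ratio_le {β β' : ℝ} (hβ : 0 < β) (h : β ≤ β') (J : Matrix (Fin n) (Fin n) ℝ) :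
    jPress β' J / β' ≤ jPress β J / β + Real.log 2 * (1 / β - 1 / β') := by
  have hb' : 0 < β' := hβ.trans_le h
  have hp : 1 ≤ β' / β := by rw [le_div_iff₀ hβ, one_mul]; exact h
  set a : (Fin n → Bool) → ℝ := fun σ => Real.exp (β / 2 * qform J σ) with ha
  have hap : ∀ σ, a σ ^ (β' / β) = Real.exp (β' / 2 * qform J σ) := fun σ => by
    rw [ha, ← Real.exp_mul]; congr 1; field_simp
  set S := zsum β J with hS
  have hS0 : 0 < S := zsum_pos β J
  have hle : zsum β' J ≤ S ^ (β' / β) := by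
    have e : ∀ σ, a σ ^ (β' / β) ≤ S ^ (β' / β) * (a σ / S) := fun σ => by
      have h1 : a σ / S ≤ 1 := (div_le_one hS0).2
        (single_le_sum (f := a) (fun τ _ => (Real.exp_pos _).le) (mem_univ σ))
      have h0 : 0 < a σ / S := div_pos (Real.exp_pos _) hS0
      have h3 : (a σ / S) ^ (β' / β) ≤ a σ / S := by
        simpa using Real.rpow_le_rpow_of_exponent_ge h0 h1 hp
      calc a σ ^ (β' / β) = S ^ (β' / β) * (a σ / S) ^ (β' / β) := by
            rw [← Real.mul_rpow hS0.le h0.le, mul_div_cancel₀ _ hS0.ne']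
        _ ≤ _ := mul_le_mul_of_nonneg_left h3 (Real.rpow_nonneg hS0.le _)
    calc zsum β' J = ∑ σ, a σ ^ (β' / β) := by simp only [hap]; rfl
      _ ≤ ∑ σ, S ^ (β' / β) * (a σ / S) := sum_le_sum fun σ _ => e σ
      _ = _ := by
        rw [← mul_sum, ← sum_div, show ∑ σ, a σ = S from rfl, div_self hS0.ne', mul_one]
  have hl := Real.log_le_log (zsum_pos β' J) hle
  rw [Real.log_rpow hS0, ← div_le_iff₀' (by positivity), div_div_eq_mul_div] at hl
  rw [jPress_eq, jPress_eq, ← hS]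
  rcases Nat.eq_zero_or_pos n with rfl | hn
  · simpa using mul_nonneg (Real.log_nonneg one_le_two)
      (sub_nonneg.2 (inv_anti₀ hβ h))
  have hn' : (0 : ℝ) < n := Nat.cast_pos.2 hn
  have hl2 : Real.log (zsum β' J) / β' ≤ Real.log S / β := by
    rw [div_le_div_iff₀ hb' hβ]
    rw [div_le_iff₀ hb'] at hl
    linarith
  have := mul_le_mul_of_nonneg_left hl2 (inv_nonneg.2 hn'.le)
  have e : ∀ x γ : ℝ, (n : ℝ)⁻¹ * (x - n * Real.log 2) / γ = (n : ℝ)⁻¹ * (x / γ) - Real.log 2 * (1 / γ) :=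
    fun x γ => by field_simp
  rw [e, e]
  linarith

end Vale.Agent.P146F
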