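import Vale.Agent.P146F.Var.Limit
import Vale.Agent.P146F.Var.Compare
import Vale.Agent.P146F.Var.Ratio
import Vale.Agent.P146F.Semi.Deform
import Vale.Agent.P166F.Energy
import Vale.Agent.P166F.Up.StepLaw

/-!
P146: lowering the couplings lowers the pressure at a definite rate, given the spectral limits and
the absence of a gap at zero.
-/

namespace Vale.Agent.P146F

open MeasureTheory ProbabilityTheory Matrix Finset Filter Polynomial
open Vale.Agent.P150 (Dis gauss)
open Vale.Agent.P166N.Spectrum (spins jPress abs_jPress_le)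
open Vale.Agent.P166F (Levels Path stepLaw entS energy tail formulaValues formula_bddBelow)
open scoped Topology

variable {n : ℕ}

/-- The pressure limit for polynomials of the GOE matrix. -/
def PressureLimit (β : ℝ) : Prop := ∀ P : ℝ[X],
  Tendsto (fun n => ∫ A : Dis n, |jPress β (aeval (goe A) P) -
      sInf (formulaValues (sc.map fun x => P.eval x) β)| ∂gauss (Fin n × Fin n)) atTop (𝓝 0)

/-- Near-minimal order parameters are marginal at zero. -/
def NoGap (β : ℝ) : Prop := ∀ ε > 0, ∃ (k : ℕ) (m p : Fin (k + 1) → ℝ), Levels m ∧ Path p ∧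
  energy sc β (stepLaw m p) + entS m p < sInf (formulaValues sc β) + ε ∧
    1 - ε ≤ β * tail (stepLaw m p) 0

lemma nice_aeval (P : ℝ[X]) (i j : Fin n) : Nice fun A : Dis n => aeval (goe A) P i j := by
  simp only [aeval_eq_sum_range, Matrix.sum_apply, Matrix.smul_apply, smul_eq_mul]
  exact Nice.sum _ fun k _ => (nice_goe_pow k i j).const_mul _

lemma abs_qform_le (M : Matrix (Fin n) (Fin n) ℝ) (σ : Fin n → Bool) :
    |qform M σ| ≤ ∑ i, ∑ j, |M i j| := by
  rw [qform_eq]
  refine (abs_sum_le_sum_abs _ _).trans (sum_le_sum fun i _ =>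
    (abs_sum_le_sum_abs _ _).trans (sum_le_sum fun j _ => le_of_eq ?_))
  have hs : ∀ i, |spins σ i| = 1 := fun i => by
    cases hb : σ i <;> simp [Vale.Agent.P166N.Spectrum.spins, Vale.Agent.P166.spin, hb]
  rw [abs_mul, abs_mul, hs, hs, one_mul, mul_one]

lemma nice_jPress (β : ℝ) (P : ℝ[X]) : Nice fun A : Dis n => jPress β (aeval (goe A) P) := by
  refine Nice.of_bound (G := fun A : Dis n => |β| / 2 * ∑ i, ∑ j, |aeval (goe A) P i j|) ?_ ?_ fun A => ?_
  · exact (Vale.Agent.P166N.Spectrum.continuous_jPress β).comp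
      (continuous_matrix fun i j => (nice_aeval P i j).1)
  · exact Nice.const_mul _ (Nice.sum _ fun i _ => Nice.sum _ fun j _ =>
      Nice.of_bound (nice_aeval P i j).1.abs (nice_aeval P i j) fun A => (abs_abs _).le)
  · have h0 : 0 ≤ ∑ i, ∑ j, |aeval (goe A) P i j| :=
      sum_nonneg fun i _ => sum_nonneg fun j _ => abs_nonneg _
    rw [abs_of_nonneg (mul_nonneg (by positivity) h0)]
    refine abs_jPress_le β _ h0 fun σ => ?_
    rcases Nat.eq_zero_or_pos n with rfl | hn
    · simp [dotProduct]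
    exact (abs_qform_le _ σ).trans (le_mul_of_one_le_right h0 (Nat.one_le_cast.2 hn))

lemma nice_gquad (β : ℝ) (P : ℝ[X]) : Nice fun A : Dis n => gquad β P A := by
  have e : (fun A : Dis n => gquad β P A) = fun A => ∑ σ, gw β A σ * qform (aeval (goe A) P) σ :=
    funext fun A => by simp only [gquad, gw, sum_div, div_mul_eq_mul_div]
  rw [e]
  refine Nice.sum _ fun σ _ => (nice_gw β σ).mul ?_
  simp only [qform_eq]
  exact Nice.sum _ fun i _ => Nice.sum _ fun j _ =>
    ((Nice.const _).mul (nice_aeval P i j)).mul (Nice.const _)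

/-- Jensen: lowering the couplings by `t h (X)` costs at most the response. -/
lemma jPress_sub_le (β t : ℝ) (P : ℝ[X]) (A : Dis n) :
    jPress β (goe A) - jPress β (aeval (goe A) (X - C t * P)) ≤
      β * t / (2 * n) * gquad β P A := by
  set J := aeval (goe A) (X - C t * P) with hJdef
  have hJ : ∀ σ, qform J σ = qform (goe A) σ + (-t) * qform (aeval (goe A) P) σ := fun σ => by
    rw [hJdef, map_sub, map_mul, aeval_X, aeval_C, ← Algebra.smul_def, sub_eq_add_neg, ← neg_smul,
      qform_add_smul]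
  set y : (Fin n → Bool) → ℝ := fun σ => β / 2 * (t * qform (aeval (goe A) P) σ)
  set ym := ∑ σ, gw β A σ * y σ
  have h1 : zsum β J = zsum β (goe A) * ∑ σ, gw β A σ * Real.exp (-y σ) := by
    simp only [zsum, hJ, gw, mul_sum]
    refine sum_congr rfl fun σ _ => ?_
    rw [← mul_assoc, mul_div_cancel₀ _ (sum_pos (fun τ _ => Real.exp_pos _) univ_nonempty).ne', ← Real.exp_add]
    congr 1
    simp only [y]
    ring
  have hnn : ∀ σ, 0 ≤ gw β A σ := fun σ => div_nonneg (Real.exp_pos _).le (zsum_pos β _).le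
  have h2 : Real.exp (-ym) ≤ ∑ σ, gw β A σ * Real.exp (-y σ) := by
    have e : Real.exp (-ym) = ∑ σ, gw β A σ * (Real.exp (-ym) * (ym - y σ + 1)) := by
      have : ∀ σ, gw β A σ * (Real.exp (-ym) * (ym - y σ + 1)) =
          Real.exp (-ym) * (gw β A σ * (ym + 1)) - Real.exp (-ym) * (gw β A σ * y σ) := fun σ => by ring
      simp only [this, sum_sub_distrib, ← mul_sum, ← sum_mul, sum_gw]
      ring
    rw [e]
    refine sum_le_sum fun σ _ => mul_le_mul_of_nonneg_left ?_ (hnn σ)
    rw [show Real.exp (-y σ) = Real.exp (-ym) * Real.exp (ym - y σ) by rw [← Real.exp_add]; ring_nf]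
    exact mul_le_mul_of_nonneg_left (Real.add_one_le_exp _) (Real.exp_pos _).le
  have h3 : Real.log (zsum β (goe A)) - Real.log (zsum β J) ≤ ym := by
    have := Real.log_le_log (mul_pos (zsum_pos β (goe A)) (Real.exp_pos (-ym)))
      (h1.symm ▸ mul_le_mul_of_nonneg_left h2 (zsum_pos β _).le)
    rw [Real.log_mul (zsum_pos β _).ne' (Real.exp_pos _).ne', Real.log_exp] at this
    linarith
  have hp : ∀ M : Matrix (Fin n) (Fin n) ℝ,
      jPress β M = (n : ℝ)⁻¹ * (Real.log ((2 : ℝ) ^ n)⁻¹ + Real.log (zsum β M)) := fun M => by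
    rw [← Real.log_mul (by positivity) (zsum_pos β M).ne']; rfl
  have e2 : β * t / (2 * n) * gquad β P A = (n : ℝ)⁻¹ * ym := by
    simp only [ym, y, gquad, gw, sum_div, mul_sum]
    exact sum_congr rfl fun σ _ => by ring
  rw [hp, hp, e2, ← mul_sub]
  exact mul_le_mul_of_nonneg_left (by linarith) (by positivity)

lemma one_le_harm {K : ℕ} (hK : 1 ≤ K) : (1 : ℝ) ≤ ∑ k ∈ range K, 1 / ((k : ℝ) + 1) := by
  refine le_trans (le_of_eq (by norm_num)) (single_le_sum (f := fun k : ℕ => 1 / ((k : ℝ) + 1))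
    (fun k _ => by positivity) (mem_range.2 (show 0 < K from hK)))

/-- The drop of the pressure per inverse temperature under the deformation. -/
noncomputable def drop (K : ℕ) (t β : ℝ) (A : Dis n) : ℝ :=
  (jPress β (goe A) - jPress β (aeval (goe A) (X - C t * tstP K))) / β

lemma nice_drop (K : ℕ) (t β : ℝ) : Nice (drop (n := n) K t β) := by
  have h := ((nice_jPress (n := n) β X).sub (nice_jPress β (X - C t * tstP K))).div_const β
  simp only [aeval_X] at h
  exact h

lemma drop_lip (K : ℕ) (t : ℝ) {a b : ℝ} (ha : 0 < a) (hb : 0 < b) (A : Dis n) :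
    |drop K t a A - drop K t b A| ≤ |1 / a - 1 / b| := by
  wlog hab : a ≤ b generalizing a b
  · rw [abs_sub_comm, abs_sub_comm (1 / a)]; exact this hb ha (le_of_not_ge hab)
  have hd : 0 ≤ 1 / a - 1 / b := sub_nonneg.2 (one_div_le_one_div_of_le ha hab)
  set J := aeval (goe A) (X - C t * tstP K)
  have p0 := jPress_ratio_mono ha hab (goe A)
  have p1 := jPress_ratio_le ha hab (goe A)
  have q0 := jPress_ratio_mono ha hab J
  have q1 := jPress_ratio_le ha hab J
  have hl : Real.log 2 * (1 / a - 1 / b) ≤ 1 * (1 / a - 1 / b) :=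
    mul_le_mul_of_nonneg_right (by linarith [Real.log_two_lt_d9]) hd
  rw [abs_of_nonneg hd, drop, drop, sub_div, sub_div, abs_le]
  constructor <;> linarith

/-- One deformation lowers the pressure, up to an error small in mean, at every large size and every
inverse temperature above a neighbourhood of one. -/
theorem exists_drop (hP : ∀ β : ℝ, 1 ≤ β → PressureLimit β) (hG : ∀ β : ℝ, 1 ≤ β → NoGap β) {K : ℕ}
    (hK : 1 ≤ K) : ∃ t > 0, ∃ δ > 0, δ ≤ 1 / 2 ∧ ∀ κ > 0, ∀ᶠ n : ℕ in atTop, ∀ β : ℝ, 1 - δ ≤ β →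
      ∃ e : Dis n → ℝ, Nice e ∧ ∫ A, e A ∂gauss (Fin n × Fin n) ≤ κ ∧ ∀ A, 0 ≤ e A ∧
        t * (∑ k ∈ range K, 1 / ((k : ℝ) + 1)) / 512 - e A ≤ drop K t β A := by
  set Hs := ∑ k ∈ range K, 1 / ((k : ℝ) + 1)
  have hH : 1 ≤ Hs := one_le_harm hK
  obtain ⟨t, ht, hgain⟩ := exists_energy_gain hK
  set η := t * Hs / 512 with hη
  have hη0 : 0 < η := by positivity
  have hlim : ∀ β : ℝ, 1 ≤ β → ∀ κ > 0, ∀ᶠ n : ℕ in atTop, ∃ e : Dis n → ℝ, Nice e ∧
      ∫ A, e A ∂gauss (Fin n × Fin n) ≤ κ ∧ ∀ A, 0 ≤ e A ∧ 2 * η - e A ≤ drop K t β A := by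
    intro β hβ κ hκ
    have hβ0 : 0 < β := by linarith
    set ε := min (β * t * Hs / 128) (1 / (4 * (K : ℝ)))
    have hK0 : (1 : ℝ) ≤ K := by exact_mod_cast hK
    have hε : 0 < ε := lt_min (by positivity) (by positivity)
    obtain ⟨k, m, p, hm, hp, hv, hT⟩ := hG β hβ ε hε
    set L0 := sInf (formulaValues sc β)
    set Lt := sInf (formulaValues (dfm K t) β)
    have hgap : β * t * Hs / 128 ≤ L0 - Lt := by
      have h1 := hgain β hβ _ (Vale.Agent.P166F.olaw_stepLaw hm hp)
        (le_trans (sub_le_sub_left (min_le_right _ _) 1) hT)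
      have h2 : Lt ≤ energy (dfm K t) β (stepLaw m p) + entS m p :=
        csInf_le (formula_bddBelow (isCompact_support_dfm K ht.le) hβ0.le).1 ⟨k, m, p, hm, hp, rfl⟩
      have := min_le_left (β * t * Hs / 128) (1 / (4 * (K : ℝ)))
      linarith
    have hP0 := hP β hβ X
    have hP1 := hP β hβ (X - C t * tstP K)
    have hid : (fun x : ℝ => (X : ℝ[X]).eval x) = id := funext fun x => eval_X
    have hmap : (fun x : ℝ => (X - C t * tstP K).eval x) = fun x => x - t * tst K x :=
      funext fun x => by rw [eval_sub, eval_X, eval_mul, eval_C, eval_tstP]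
    rw [hid, Measure.map_id] at hP0
    rw [hmap] at hP1
    simp only [aeval_X] at hP0
    have h2η : 2 * η * β ≤ L0 - Lt := by
      rw [hη]
      have : 0 < β * t * Hs := by positivity
      linarith
    filter_upwards [((hP0.add hP1).div_const β).eventually_le_const
      (show (0 + 0) / β < κ by rw [add_zero, zero_div]; exact hκ)] with n hn
    set e : Dis n → ℝ := fun A => (|jPress β (goe A) - L0| +
      |jPress β (aeval (goe A) (X - C t * tstP K)) - Lt|) / β with he
    have habs : ∀ (P : ℝ[X]) (L : ℝ), Nice fun A : Dis n => |jPress β (aeval (goe A) P) - L| :=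
      fun P L => Nice.of_bound ((nice_jPress β P).sub (Nice.const L)).1.abs
        ((nice_jPress β P).sub (Nice.const L)) fun A => (abs_abs _).le
    have hX : Nice fun A : Dis n => |jPress β (goe A) - L0| := by simpa [aeval_X] using habs X L0
    refine ⟨e, (hX.add (habs _ Lt)).div_const β, ?_, fun A => ⟨by positivity, ?_⟩⟩
    · simp only [he]
      rw [integral_div, integral_add hX.integrable (habs _ Lt).integrable]
      exact hn
    · simp only [he, drop]
      rw [le_div_iff₀ hβ0, sub_mul, div_mul_cancel₀ _ hβ0.ne']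
      linarith [le_abs_self (jPress β (aeval (goe A) (X - C t * tstP K)) - Lt),
        neg_abs_le (jPress β (goe A) - L0)]
  obtain ⟨N, hN⟩ := exists_nat_gt (2 / η)
  have hN0 : 0 < N := by
    rcases Nat.eq_zero_or_pos N with rfl | h
    · simp only [Nat.cast_zero] at hN; linarith [div_pos two_pos hη0]
    · exact h
  have hNr : (0 : ℝ) < N := Nat.cast_pos.2 hN0
  set δ := min (1 / 2) (η / 4)
  refine ⟨t, ht, δ, lt_min (by norm_num) (by positivity), min_le_left _ _, fun κ hκ => ?_⟩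
  have hgrid : ∀ᶠ n : ℕ in atTop, ∀ i ∈ Finset.Icc 1 N, ∃ e : Dis n → ℝ, Nice e ∧
      ∫ A, e A ∂gauss (Fin n × Fin n) ≤ κ ∧
        ∀ A, 0 ≤ e A ∧ 2 * η - e A ≤ drop K t ((N : ℝ) / i) A := by
    rw [eventually_all_finset]
    intro i hi
    rw [Finset.mem_Icc] at hi
    refine hlim _ ?_ κ hκ
    rw [le_div_iff₀ (Nat.cast_pos.2 hi.1), one_mul]
    exact_mod_cast hi.2
  filter_upwards [hgrid] with n hn β hβ
  have hδ : δ ≤ 1 / 2 := min_le_left _ _
  have hβ0 : 0 < β := by linarith
  have hx0 : 0 < 1 / β := by positivity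
  have hx : 1 / β ≤ 1 + η / 2 := by
    have h2 : δ ≤ η / 4 := min_le_right _ _
    rw [div_le_iff₀ hβ0]
    nlinarith [mul_le_mul_of_nonneg_left hβ (show (0 : ℝ) ≤ 1 + η / 2 by positivity),
      mul_le_mul_of_nonneg_left hδ (show (0 : ℝ) ≤ η / 2 by positivity)]
  have hN' : 2 < N * η := (div_lt_iff₀ hη0).1 hN
  set i := min N ⌈1 / β * N⌉₊
  have hi : i ∈ Finset.Icc 1 N :=
    Finset.mem_Icc.2 ⟨le_min hN0 (Nat.one_le_ceil_iff.2 (by positivity)), min_le_left _ _⟩
  have hi0 : (0 : ℝ) < i := Nat.cast_pos.2 (Finset.mem_Icc.1 hi).1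
  have hd : |1 / β - 1 / ((N : ℝ) / i)| ≤ η := by
    rw [one_div_div, abs_le, le_sub_iff_add_le, sub_le_iff_le_add]
    have h1 : (i : ℝ) ≤ ⌈1 / β * N⌉₊ := Nat.cast_le.2 (min_le_right _ _)
    have h2 : (⌈1 / β * N⌉₊ : ℝ) < 1 / β * N + 1 := Nat.ceil_lt_add_one (by positivity)
    have h3 : (i : ℝ) / N ≤ 1 / β + 1 / N := by
      rw [div_le_iff₀ hNr, add_mul, one_div_mul_cancel hNr.ne']
      linarith
    have h4 : 1 / (N : ℝ) ≤ η / 2 := by rw [div_le_iff₀ hNr]; linarith
    refine ⟨by linarith, ?_⟩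
    rcases le_total N ⌈1 / β * N⌉₊ with h | h
    · rw [show i = N from min_eq_left h, div_self hNr.ne']; linarith
    · rw [show i = ⌈1 / β * N⌉₊ from min_eq_right h]
      have : 1 / β ≤ (⌈1 / β * N⌉₊ : ℝ) / N := (le_div_iff₀ hNr).2 (Nat.le_ceil _)
      linarith
  obtain ⟨e, he, hint, hpt⟩ := hn i hi
  refine ⟨e, he, hint, fun A => ⟨(hpt A).1, ?_⟩⟩
  have h := (drop_lip K t hβ0 (div_pos hNr hi0) A).trans hd
  linarith [(abs_le.1 h).1, (hpt A).2]

end Vale.Agent.P146F
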