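import Vale.Agent.P146F.Semi.Fejer

/-!
P146: the operator of the limiting variance acts diagonally on the Chebyshev polynomials.
-/

namespace Vale.Agent.P146F

open MeasureTheory Polynomial Finset

/-- The moments of the semicircle law. -/
noncomputable def mo (k : ℕ) : ℝ := ∫ x, x ^ k ∂sc

/-- The difference quotient averaged over the semicircle law, on a monomial. -/
noncomputable def dltM (k : ℕ) : ℝ[X] := ∑ l ∈ range k, C (mo (k - 1 - l)) * X ^ l

/-- The difference quotient averaged over the semicircle law. -/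
noncomputable def dlt : ℝ[X] →ₗ[ℝ] ℝ[X] :=
  (Polynomial.basisMonomials ℝ).constr ℝ dltM

/-- The operator of the limiting variance. -/
noncomputable def vop : ℝ[X] →ₗ[ℝ] ℝ[X] :=
  (derivative (R := ℝ)).comp (LinearMap.mulLeft ℝ (X : ℝ[X]) - (2 : ℝ) • dlt)

lemma dlt_monomial (k : ℕ) (a : ℝ) : dlt (monomial k a) = C a * dltM k := by
  have h : monomial k a = a • (Polynomial.basisMonomials ℝ k) := by
    simp [Polynomial.coe_basisMonomials, smul_monomial]
  rw [h, map_smul, dlt, Module.Basis.constr_basis, smul_eq_C_mul]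

lemma vop_apply (P : ℝ[X]) : vop P = derivative (X * P - (2 : ℝ) • dlt P) := rfl

lemma integrable_eval (P : ℝ[X]) : Integrable (fun x => P.eval x) sc := integrable_sc P.continuous

lemma dlt_X_mul (P : ℝ[X]) : dlt (X * P) = X * dlt P + C (∫ x, P.eval x ∂sc) := by
  induction P using Polynomial.induction_on' with
  | add p q hp hq =>
    rw [mul_add, map_add, hp, hq, map_add]
    simp only [eval_add]
    rw [integral_add (integrable_eval p) (integrable_eval q), map_add]
    ring
  | monomial k a =>
    rw [X_mul_monomial, dlt_monomial, dlt_monomial]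
    simp only [eval_monomial]
    rw [integral_const_mul, dltM, dltM, sum_range_succ', map_mul, mul_add]
    simp only [Nat.add_sub_cancel, Nat.sub_zero, pow_zero, mul_one, mul_sum]
    congr 1
    refine sum_congr rfl fun l _ => ?_
    rw [show k - (l + 1) = k - 1 - l by omega, pow_succ]
    ring

lemma dlt_one : dlt 1 = 0 := by
  rw [← monomial_zero_one, dlt_monomial]; simp [dltM]

lemma dlt_S (j : ℕ) : dlt (Chebyshev.S ℝ ((j + 1 : ℕ) : ℤ)) = Chebyshev.S ℝ (j : ℤ) := by
  induction j using Nat.strong_induction_on with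
  | _ j ih =>
    match j with
    | 0 =>
      simp only [Nat.zero_add, Nat.cast_one, Chebyshev.S_one, Nat.cast_zero, Chebyshev.S_zero]
      rw [← mul_one (X : ℝ[X]), dlt_X_mul, dlt_one]
      simp
    | i + 1 =>
      have e : Chebyshev.S ℝ (((i + 1) + 1 : ℕ) : ℤ) =
          X * Chebyshev.S ℝ ((i + 1 : ℕ) : ℤ) - Chebyshev.S ℝ (i : ℤ) := by
        push_cast
        rw [show (i : ℤ) + 1 + 1 = i + 2 by ring, Chebyshev.S_add_two]
      rw [e, map_sub, dlt_X_mul, ih i (by omega)]
      have hc : ∫ x, (Chebyshev.S ℝ ((i + 1 : ℕ) : ℤ)).eval x ∂sc = 0 := by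
        simpa [cheb] using integral_cheb (i + 1)
      rw [hc, map_zero, add_zero]
      match i with
      | 0 => simp [dlt_one]
      | i + 1 =>
        rw [ih i (by omega)]
        push_cast
        rw [show (i : ℤ) + 1 + 1 = i + 2 by ring, Chebyshev.S_add_two]

lemma derivative_S (j : ℕ) :
    derivative (X * Chebyshev.S ℝ (j : ℤ) - (2 : ℝ) • dlt (Chebyshev.S ℝ (j : ℤ))) =
      ((j : ℝ) + 1) • Chebyshev.S ℝ (j : ℤ) := by
  induction j using Nat.strong_induction_on with
  | _ j ih =>
    match j with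
    | 0 => simp [dlt_one]
    | 1 =>
      rw [dlt_S 0]
      simp [smul_eq_C_mul, C_add]
      ring
    | i + 2 =>
      have h := ih i (by omega)
      have hS : Chebyshev.S ℝ ((i + 2 : ℕ) : ℤ) =
          X * Chebyshev.S ℝ ((i + 1 : ℕ) : ℤ) - Chebyshev.S ℝ (i : ℤ) := by
        push_cast; rw [Chebyshev.S_add_two]
      have h1 := ih (i + 1) (by omega)
      rw [dlt_S (i + 1)]
      rw [dlt_S i] at h1
      have hd : dlt (Chebyshev.S ℝ (i : ℤ)) =
          X * Chebyshev.S ℝ (i : ℤ) - Chebyshev.S ℝ ((i + 1 : ℕ) : ℤ) := by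
        match i with
        | 0 => simp [dlt_one]
        | i + 1 =>
          rw [dlt_S i]
          push_cast
          rw [show (i : ℤ) + 1 + 1 = i + 2 by ring, Chebyshev.S_add_two]
          ring
      rw [hd] at h
      rw [hS]
      simp only [smul_eq_C_mul, map_sub, derivative_mul, derivative_X, Nat.cast_add,
        Nat.cast_one, Nat.cast_ofNat, map_add, map_one, map_ofNat, derivative_ofNat, zero_mul, zero_add, one_mul] at h h1 ⊢
      linear_combination (X : ℝ[X]) * h1 - h

/-- The test polynomial. -/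
noncomputable def tstP (K : ℕ) : ℝ[X] :=
  ∑ k ∈ range K, (1 / ((k : ℝ) + 1)) • Chebyshev.S ℝ (k : ℤ)

lemma eval_tstP (K : ℕ) (x : ℝ) : (tstP K).eval x = tst K x := by
  simp only [tstP, tst, cheb, eval_finsetSum, eval_smul, smul_eq_mul]
  exact sum_congr rfl fun k _ => by ring

lemma vop_tstP (K : ℕ) : vop (tstP K) = ∑ k ∈ range K, Chebyshev.S ℝ (k : ℤ) := by
  rw [tstP, map_sum]
  refine sum_congr rfl fun k _ => ?_
  rw [map_smul, vop_apply, derivative_S, smul_smul, one_div,
    inv_mul_cancel₀ (by positivity), one_smul]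

/-- The limiting variance of the test polynomial is the harmonic sum. -/
theorem integral_tstP_vop (K : ℕ) :
    ∫ x, (tstP K).eval x * (vop (tstP K)).eval x ∂sc = ∑ k ∈ range K, 1 / ((k : ℝ) + 1) := by
  simp only [vop_tstP, eval_tstP, eval_finsetSum, tst]
  simp only [sum_mul, mul_sum, div_mul_eq_mul_div]
  have hI : ∀ i j : ℕ, Integrable
      (fun x => cheb j x * (Chebyshev.S ℝ (i : ℤ)).eval x / ((j : ℝ) + 1)) sc := fun i j =>
    integrable_sc (((continuous_cheb j).mul (Polynomial.continuous _)).div_const _)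
  rw [integral_finsetSum _ fun i _ => integrable_finsetSum _ fun j _ => hI i j]
  refine sum_congr rfl fun i hi => ?_
  rw [integral_finsetSum _ fun j _ => hI i j]
  have hm : ∀ i j : ℕ, ∫ x, cheb i x * (Chebyshev.S ℝ (j : ℤ)).eval x ∂sc =
      if i = j then 1 else 0 := integral_cheb_mul
  simp only [integral_div, hm]
  rw [sum_eq_single i (fun j _ hj => by simp [hj]) (fun h => absurd hi h), if_pos rfl]

end Vale.Agent.P146F
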