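import Vale.Agent.P146F.Var.Stein
import Vale.Agent.P146.Basic

/-!
P146: the variance of the ground state from the free energies at low temperature.
-/

namespace Vale.Agent.P146F

open MeasureTheory ProbabilityTheory Finset
open Vale.Agent.P146 (Edge F M H)
open Vale.Agent.P150 (gauss)

variable {n : ℕ}

lemma F_div_sub_M {β : ℝ} (hβ : 0 < β) (g : Edge n → ℝ) :
    |F β g / β - M g| ≤ n * Real.log 2 / β := by
  have hhi : F β g ≤ n * Real.log 2 + β * M g := by
    rw [F, Real.log_le_iff_le_exp (Vale.Agent.P146.sum_exp_pos β g), Real.exp_add, ← Real.log_pow,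
      Real.exp_log (by positivity)]
    refine (sum_le_sum fun s _ => Real.exp_le_exp.2
      (mul_le_mul_of_nonneg_left (Vale.Agent.P146.H_le_M g s) hβ.le)).trans_eq ?_
    simp
  have hlo : β * M g ≤ F β g := by
    obtain ⟨s, -, hs⟩ := exists_mem_eq_sup' univ_nonempty fun s : Fin n → Bool => H g s
    rw [F, Real.le_log_iff_exp_le (Vale.Agent.P146.sum_exp_pos β g)]
    refine le_trans ?_ (single_le_sum (f := fun s : Fin n → Bool => Real.exp (β * H g s))
      (fun s _ => (Real.exp_pos _).le) (mem_univ s))
    exact le_of_eq (by rw [show M g = H g s from hs])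
  rw [div_sub' hβ.ne', abs_div, abs_of_pos hβ, div_le_div_iff_of_pos_right hβ,
    abs_of_nonneg (by linarith)]
  linarith

/-- Windows of the free energy at low temperature bound windows of the ground state. -/
theorem max_window_le {L ε : ℝ} (h : ∀ β : ℝ, 1 ≤ β → ∀ c : ℝ,
      (gauss (Edge n)).real {g | |F β g - c| ≤ β * (L + 1)} ≤ ε) (c : ℝ) :
    (gauss (Edge n)).real {g | |M g - c| ≤ L} ≤ ε := by
  have hP : IsProbabilityMeasure (gauss (Edge n)) := by unfold Vale.Agent.P150.gauss; infer_instance
  set β := max 1 (n * Real.log 2)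
  have hβ : 1 ≤ β := le_max_left _ _
  have hβ0 : 0 < β := by linarith
  refine le_trans (measureReal_mono (fun g (hg : |M g - c| ≤ L) => ?_) (measure_ne_top _ _)) (h β hβ (β * c))
  show |F β g - β * c| ≤ β * (L + 1)
  have hd : |F β g / β - M g| ≤ 1 :=
    (F_div_sub_M hβ0 g).trans ((div_le_one hβ0).2 (le_max_right _ _))
  rw [show F β g - β * c = β * ((F β g / β - M g) + (M g - c)) by field_simp; ring, abs_mul,
    abs_of_pos hβ0]
  refine mul_le_mul_of_nonneg_left ((abs_add_le _ _).trans ?_) hβ0.le
  linarith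

end Vale.Agent.P146F
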