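import Vale.Agent.P146F.Var.Spread
import Vale.Agent.P146F.Var.Max
import Vale.Agent.P146F.Goe.Moments
import Vale.Agent.P146F.Semi.Rtr
import Vale.Agent.P146.Gap.Near

/-!
P146: the variance diverges, given the pressure limit for polynomials of the GOE matrix.
-/

namespace Vale.Agent.P146F

open MeasureTheory ProbabilityTheory Filter
open Vale.Agent.P146 (Edge F M)
open Vale.Agent.P150 (gauss)

theorem momLimit : MomLimit := fun a b => by
  have h := tendsto_tmom_mul a b
  rwa [catC_eq_integral, catC_eq_integral] at h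

theorem noGap {β : ℝ} (hβ : 1 ≤ β) : NoGap β := fun _ε hε =>
  Vale.Agent.P146.Gap.exists_near sc (fun _ => rtr_sc_le) (fun _ => rtr_sc_eq) rtr_sc_zero hβ hε

/-- The fluctuations diverge at and below the critical temperature, and at zero temperature. -/
theorem diverges (hP : ∀ β : ℝ, 1 ≤ β → PressureLimit β) :
    (∀ L : ℝ, ∀ ε > 0, ∃ δ > 0, ∀ᶠ n : ℕ in atTop,
      (∀ β : ℝ, 1 - δ ≤ β → ∀ c : ℝ, (gauss (Edge n)).real {g | |F β g - c| ≤ β * L} ≤ ε) ∧
      ∀ c : ℝ, (gauss (Edge n)).real {g | |M g - c| ≤ L} ≤ ε) ∧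
    ∀ B : ℝ, ∃ δ > 0, ∀ᶠ n : ℕ in atTop,
      (∀ β : ℝ, 1 - δ ≤ β →
        B * β ^ 2 ≤ variance (fun g : Edge n → ℝ => F β g) (gauss (Edge n))) ∧
      B ≤ variance (fun g : Edge n → ℝ => M g) (gauss (Edge n)) := by
  have key : ∀ L : ℝ, ∀ ε > 0, ∃ δ > 0, δ ≤ 1 / 2 ∧ ∀ᶠ n : ℕ in atTop,
      (∀ β : ℝ, 1 - δ ≤ β → ∀ c : ℝ, (gauss (Edge n)).real {g | |F β g - c| ≤ β * L} ≤ ε) ∧
      ∀ c : ℝ, (gauss (Edge n)).real {g | |M g - c| ≤ L} ≤ ε := by
    intro L ε hε
    obtain ⟨δ, hδ, hδ2, h⟩ := eventually_window_small momLimit hP (fun _ => noGap) (max L 0 + 1) hε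
    refine ⟨δ, hδ, hδ2, h.mono fun n hn => ⟨fun β hβ c => ?_, max_window_le (fun β hβ c => ?_)⟩⟩
    · refine le_trans (measureReal_mono (fun g (hg : |F β g - c| ≤ β * L) => ?_)
        (by unfold Vale.Agent.P150.gauss; exact measure_ne_top _ _)) (hn β hβ c)
      exact hg.trans (mul_le_mul_of_nonneg_left (by linarith [le_max_left L 0]) (by linarith))
    · refine le_trans (measureReal_mono (fun g (hg : |F β g - c| ≤ β * (L + 1)) => ?_)
        (by unfold Vale.Agent.P150.gauss; exact measure_ne_top _ _)) (hn β (by linarith) c)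
      exact hg.trans (mul_le_mul_of_nonneg_left (by linarith [le_max_left L 0]) (by linarith))
  refine ⟨fun L ε hε => ?_, fun B => ?_⟩
  · obtain ⟨δ, hδ, -, h⟩ := key L ε hε
    exact ⟨δ, hδ, h⟩
  · obtain ⟨δ, hδ, hδ2, h⟩ := key (2 * max B 0 + 1) (1 / 2) (by norm_num)
    set L := 2 * max B 0 + 1
    have h0 : 0 ≤ max B 0 := le_max_right _ _
    have hL : B ≤ L ^ 2 / 2 := by
      have : B ≤ max B 0 := le_max_left _ _
      nlinarith
    refine ⟨δ, hδ, h.mono fun n hn => ⟨fun β hβ => ?_, ?_⟩⟩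
    · have hβ0 : 0 ≤ β := by linarith
      have hF : Nice fun g : Edge n → ℝ => F β g := by
        have hG : Nice (Vale.Agent.P146.G (n := n) β) :=
          ⟨Vale.Agent.P146.continuous_G β, Vale.Agent.P146.growth_of_le (abs_nonneg β)
            (Vale.Agent.P146.abs_G_le β)⟩
        have := Nice.add hG (Nice.const ((n : ℝ) * Real.log 2))
        simpa [Vale.Agent.P146.G] using this
      refine le_trans ?_ (variance_ge_of_window (mul_nonneg hβ0 (by positivity)) hF (hn.1 β hβ))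
      rw [mul_pow, mul_comm B, mul_div_assoc]
      exact mul_le_mul_of_nonneg_left hL (sq_nonneg β)
    · have hM : Nice fun g : Edge n → ℝ => M g :=
        ⟨Vale.Agent.P146.continuous_M, Vale.Agent.P146.growth_of_le zero_le_one fun g => by
          rw [one_mul]; exact Vale.Agent.P146.abs_M_le g⟩
      refine hL.trans ?_
      simpa using variance_ge_of_window (β := 1) (by positivity) hM (by simpa using hn.2)

end Vale.Agent.P146F
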