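import Vale.Agent.P146F.Var.Stein
import Vale.Agent.P146F.Var.Cheb

/-!
P146: the variance inequality of the GOE free energy against a polynomial field.
-/

namespace Vale.Agent.P146F

open MeasureTheory ProbabilityTheory Matrix Finset Function Filter
open Vale.Agent.P150 (Dis gauss)
open scoped Topology

variable {n : ℕ}

/-- Convergence of products of two trace moments to semicircle moments. -/
def MomLimit : Prop := ∀ a b : ℕ,
  Tendsto (fun n => ∫ A : Dis n, tmom a A * tmom b A ∂gauss (Fin n × Fin n)) atTop (𝓝 (mo a * mo b))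

/-- The gradient of `psi j`. -/
noncomputable def gradPsi (j : ℕ) (A : Dis n) : Matrix (Fin n) (Fin n) ℝ :=
  ((j : ℝ) + 1) • goe A ^ j - (1 / (n : ℝ)) • (∑ l ∈ range j,
    (((l : ℝ) * (goe A ^ (j - 1 - l)).trace) • goe A ^ (l - 1) +
      (((j - 1 - l : ℕ) : ℝ) * (goe A ^ l).trace) • goe A ^ (j - 1 - l - 1)) +
    ((j : ℝ) * ((j - 1 : ℕ) : ℝ)) • goe A ^ (j - 1 - 1))

lemma hasDerivAt_psi (j : ℕ) (A : Dis n) (a b : Fin n) :
    HasDerivAt (fun s => psi j (update A (a, b) s))
      ((gradPsi j A a b + gradPsi j A b a) / √(2 * n)) (A (a, b)) := by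
  have h := hasDerivAt_trace_pow A a b
  have hs := HasDerivAt.fun_sum (u := range j) fun l _ => (h l).mul (h (j - 1 - l))
  have := (h (j + 1)).sub ((hs.add ((h (j - 1)).const_mul (j : ℝ))).div_const (n : ℝ))
  refine this.congr_deriv ?_
  simp only [update_eq_self, gradPsi, Matrix.sub_apply, Matrix.smul_apply, Matrix.add_apply,
    Matrix.sum_apply, smul_eq_mul, goe_pow_symm A _ b a, Nat.add_sub_cancel]
  have e : ∑ l ∈ range j, (2 * (l : ℝ) * (goe A ^ (l - 1)) a b / √(2 * n) * (goe A ^ (j - 1 - l)).trace +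
      (goe A ^ l).trace * (2 * ((j - 1 - l : ℕ) : ℝ) * (goe A ^ (j - 1 - l - 1)) a b / √(2 * n))) =
      2 / √(2 * n) * ∑ l ∈ range j, ((l : ℝ) * (goe A ^ (j - 1 - l)).trace * (goe A ^ (l - 1)) a b +
        ((j - 1 - l : ℕ) : ℝ) * (goe A ^ l).trace * (goe A ^ (j - 1 - l - 1)) a b) := by
    rw [mul_sum]
    exact sum_congr rfl fun l _ => by ring
  rw [e]
  push_cast
  ring

lemma nice_gradPsi (j : ℕ) (a b : Fin n) : Nice fun A : Dis n => gradPsi j A a b := by
  simp only [gradPsi, Matrix.sub_apply, Matrix.smul_apply, Matrix.add_apply, Matrix.sum_apply, smul_eq_mul]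
  exact ((nice_goe_pow _ a b).const_mul _).sub ((Nice.add (Nice.sum _ fun l _ =>
    (((nice_trace_pow _).const_mul _).mul (nice_goe_pow _ a b)).add
      (((nice_trace_pow _).const_mul _).mul (nice_goe_pow _ a b)))
    ((nice_goe_pow _ a b).const_mul _)).const_mul _)

/-- The second moment of the divergences, through trace moments. -/
noncomputable def covPsi (j k : ℕ) (A : Dis n) : ℝ :=
  2 * (((j : ℝ) + 1) * tmom (j + k) A - ∑ l ∈ range j,
    ((l : ℝ) * (tmom (j - 1 - l) A * tmom (l - 1 + k) A) +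
      ((j - 1 - l : ℕ) : ℝ) * (tmom l A * tmom (j - 1 - l - 1 + k) A)) -
    (j : ℝ) * ((j - 1 : ℕ) : ℝ) / n * tmom (j - 1 - 1 + k) A)

theorem integral_psi_mul (hn : 0 < n) (j k : ℕ) :
    ∫ A, psi j A * psi k A ∂gauss (Fin n × Fin n) = ∫ A, covPsi j k A ∂gauss (Fin n × Fin n) := by
  rw [stein_pow hn k (nice_psi j) (nice_gradPsi j) fun A a b => hasDerivAt_psi j A a b,
    ← integral_const_mul]
  refine integral_congr_ae (ae_of_all _ fun A => ?_)
  simp only [gradPsi, Matrix.sub_mul, Matrix.add_mul, Matrix.smul_mul, Matrix.sum_mul, ← pow_add,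
    Matrix.trace_sub, Matrix.trace_add, Matrix.trace_smul, Matrix.trace_sum, smul_eq_mul, covPsi, tmom]
  simp only [mul_sub, mul_add, mul_sum, div_mul_eq_mul_div, mul_div_assoc']
  have hn' : (n : ℝ) ≠ 0 := Nat.cast_ne_zero.2 hn.ne'
  rw [sum_congr rfl fun l _ => ?_]
  · field_simp
    ring
  · field_simp

variable (hM : MomLimit)
include hM

lemma tendsto_tmom_one (a : ℕ) :
    Tendsto (fun n => ∫ A : Dis n, tmom a A ∂gauss (Fin n × Fin n)) atTop (𝓝 (mo a)) := by
  have h := hM a 0
  have h0 : mo 0 = 1 := by simp [mo]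
  rw [h0, mul_one] at h
  refine h.congr' ?_
  filter_upwards [eventually_gt_atTop 0] with n hn
  refine integral_congr_ae (ae_of_all _ fun A => ?_)
  simp [tmom, hn.ne']

lemma tendsto_covPsi (j k : ℕ) :
    Tendsto (fun n => ∫ A : Dis n, covPsi j k A ∂gauss (Fin n × Fin n)) atTop
      (𝓝 (2 * ∫ x, x ^ k * (vop (Polynomial.monomial j 1)).eval x ∂sc)) := by
  have e : ∀ n : ℕ, ∫ A : Dis n, covPsi j k A ∂gauss (Fin n × Fin n) =
      2 * (((j : ℝ) + 1) * (∫ A : Dis n, tmom (j + k) A ∂gauss (Fin n × Fin n)) - ∑ l ∈ range j,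
      ((l : ℝ) * (∫ A : Dis n, tmom (j - 1 - l) A * tmom (l - 1 + k) A ∂gauss (Fin n × Fin n)) +
        ((j - 1 - l : ℕ) : ℝ) *
          (∫ A : Dis n, tmom l A * tmom (j - 1 - l - 1 + k) A ∂gauss (Fin n × Fin n))) -
      (j : ℝ) * ((j - 1 : ℕ) : ℝ) / n * ∫ A : Dis n, tmom (j - 1 - 1 + k) A ∂gauss (Fin n × Fin n)) := by
    intro n
    have i2 : ∀ a b, Nice fun A : Dis n => tmom a A * tmom b A := fun a b => (nice_tmom a).mul (nice_tmom b)
    have i3 : ∀ l : ℕ, Nice fun A : Dis n => (l : ℝ) * (tmom (j - 1 - l) A * tmom (l - 1 + k) A) +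
        ((j - 1 - l : ℕ) : ℝ) * (tmom l A * tmom (j - 1 - l - 1 + k) A) := fun l =>
      ((i2 _ _).const_mul _).add ((i2 _ _).const_mul _)
    simp only [covPsi]
    rw [integral_const_mul, integral_sub (((nice_tmom _).const_mul _).sub (Nice.sum _ fun l _ => i3 l)).integrable
      ((nice_tmom _).const_mul _).integrable, integral_sub ((nice_tmom _).const_mul _).integrable
      (Nice.sum _ fun l _ => i3 l).integrable, integral_const_mul, integral_const_mul,
      integral_finsetSum _ fun l _ => (i3 l).integrable]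
    simp only [integral_add ((i2 _ _).const_mul _).integrable ((i2 _ _).const_mul _).integrable,
      integral_const_mul]
  simp only [e]
  refine Tendsto.const_mul 2 ?_
  have hlim : ∫ x, x ^ k * (vop (Polynomial.monomial j 1)).eval x ∂sc =
      ((j : ℝ) + 1) * mo (j + k) - ∑ l ∈ range j, ((l : ℝ) * (mo (j - 1 - l) * mo (l - 1 + k)) +
        ((j - 1 - l : ℕ) : ℝ) * (mo l * mo (j - 1 - l - 1 + k))) - 0 := by
    rw [sum_add_distrib]
    have er : ∑ l ∈ range j, ((j - 1 - l : ℕ) : ℝ) * (mo l * mo (j - 1 - l - 1 + k)) =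
        ∑ l ∈ range j, (l : ℝ) * (mo (j - 1 - l) * mo (l - 1 + k)) := by
      rw [← sum_range_reflect]
      refine sum_congr rfl fun l hl => ?_
      rw [mem_range] at hl
      rw [show j - 1 - (j - 1 - l) = l by omega]
    have ev : ∀ x : ℝ, x ^ k * (vop (Polynomial.monomial j 1)).eval x =
        ((j : ℝ) + 1) * x ^ (j + k) - 2 * ∑ l ∈ range j, (l : ℝ) * mo (j - 1 - l) * x ^ (l - 1 + k) := by
      intro x
      rw [vop_apply, dlt_monomial, Polynomial.C_1, one_mul, dltM, Polynomial.X_mul_monomial]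
      simp only [map_sub, map_smul, Polynomial.derivative_monomial, Polynomial.derivative_sum,
        Polynomial.derivative_C_mul_X_pow, Polynomial.eval_sub, Polynomial.eval_smul,
        Polynomial.eval_monomial, Polynomial.eval_finsetSum, Polynomial.eval_mul, Polynomial.eval_C,
        Polynomial.eval_pow, Polynomial.eval_X, smul_eq_mul, Nat.add_sub_cancel, one_mul,
        mul_sub, mul_sum]
      push_cast
      congr 1
      · rw [pow_add]; ring
      · exact sum_congr rfl fun l _ => by rw [pow_add]; ring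
    rw [er, sub_zero]
    simp only [ev]
    rw [integral_sub ((integrable_sc (by fun_prop)).const_mul _) ((integrable_sc (by fun_prop)).const_mul _),
      integral_const_mul, integral_const_mul, integral_finsetSum _ fun l _ => (integrable_sc (by fun_prop)).const_mul _]
    simp only [integral_const_mul, ← mul_assoc, two_mul, ← mo.eq_def]
  rw [hlim]
  refine ((tendsto_tmom_one hM _).const_mul _).sub (tendsto_finsetSum _ fun l _ =>
    ((hM _ _).const_mul _).add ((hM _ _).const_mul _)) |>.sub ?_
  simpa using (tendsto_const_div_atTop_nhds_zero_nat ((j : ℝ) * ((j - 1 : ℕ) : ℝ))).mul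
    (tendsto_tmom_one hM (j - 1 - 1 + k))

omit hM

/-- The divergence of a polynomial field. -/
noncomputable def psiP (P : Polynomial ℝ) (A : Dis n) : ℝ :=
  ∑ k ∈ range (P.natDegree + 1), P.coeff k * psi k A

lemma nice_psiP (P : Polynomial ℝ) : Nice (psiP (n := n) P) :=
  Nice.sum _ fun k _ => (nice_psi k).const_mul _

lemma tendsto_psiP_sq (hM : MomLimit) (P : Polynomial ℝ) :
    Tendsto (fun n => ∫ A : Dis n, psiP P A ^ 2 ∂gauss (Fin n × Fin n)) atTop
      (𝓝 (2 * ∫ x, P.eval x * (vop P).eval x ∂sc)) := by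
  set s := range (P.natDegree + 1)
  have e : (fun n => ∑ j ∈ s, ∑ k ∈ s, P.coeff j * P.coeff k *
      ∫ A : Dis n, covPsi j k A ∂gauss (Fin n × Fin n)) =ᶠ[atTop]
      fun n => ∫ A : Dis n, psiP P A ^ 2 ∂gauss (Fin n × Fin n) := by
    filter_upwards [eventually_gt_atTop 0] with n hn
    have hi : ∀ j k, Nice fun A : Dis n => P.coeff j * P.coeff k * (psi j A * psi k A) := fun j k =>
      ((nice_psi j).mul (nice_psi k)).const_mul _
    rw [show (fun A : Dis n => psiP P A ^ 2) =
      fun A => ∑ j ∈ s, ∑ k ∈ s, P.coeff j * P.coeff k * (psi j A * psi k A) from funext fun A => by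
        rw [psiP, sq, sum_mul_sum]
        exact sum_congr rfl fun j _ => sum_congr rfl fun k _ => by ring,
      integral_finsetSum _ fun j _ => (Nice.sum _ fun k _ => hi j k).integrable]
    refine sum_congr rfl fun j _ => ?_
    rw [integral_finsetSum _ fun k _ => (hi j k).integrable]
    exact sum_congr rfl fun k _ => by rw [integral_const_mul, integral_psi_mul hn]
  refine Tendsto.congr' e ?_
  have hl : 2 * ∫ x, P.eval x * (vop P).eval x ∂sc = ∑ j ∈ s, ∑ k ∈ s,
      P.coeff j * P.coeff k * (2 * ∫ x, x ^ k * (vop (Polynomial.monomial j 1)).eval x ∂sc) := by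
    have hv : vop P = ∑ j ∈ s, P.coeff j • vop (Polynomial.monomial j 1) := by
      conv_lhs => rw [P.as_sum_range]
      rw [map_sum]
      refine sum_congr rfl fun j _ => ?_
      rw [← map_smul, Polynomial.smul_monomial, smul_eq_mul, mul_one]
    have hx : ∀ x, P.eval x * (vop P).eval x = ∑ j ∈ s, ∑ k ∈ s,
        P.coeff j * P.coeff k * (x ^ k * (vop (Polynomial.monomial j 1)).eval x) := fun x => by
      rw [hv, Polynomial.eval_eq_sum_range, Polynomial.eval_finsetSum, sum_mul_sum, sum_comm]
      exact sum_congr rfl fun j _ => sum_congr rfl fun k _ => by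
        rw [Polynomial.eval_smul, smul_eq_mul]; ring
    have hi : ∀ j k, Integrable (fun x =>
        P.coeff j * P.coeff k * (x ^ k * (vop (Polynomial.monomial j 1)).eval x)) sc := fun j k =>
      integrable_sc (by fun_prop)
    simp only [hx]
    rw [integral_finsetSum _ fun j _ => integrable_finsetSum _ fun k _ => hi j k, mul_sum]
    refine sum_congr rfl fun j _ => ?_
    rw [integral_finsetSum _ fun k _ => hi j k, mul_sum]
    exact sum_congr rfl fun k _ => by rw [integral_const_mul]; ring
  rw [hl]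
  exact tendsto_finsetSum _ fun j _ => tendsto_finsetSum _ fun k _ =>
    (tendsto_covPsi hM j k).const_mul _

lemma qform_smul_sum (s : Finset ℕ) (c : ℕ → ℝ) (M : ℕ → Matrix (Fin n) (Fin n) ℝ) (σ : Fin n → Bool) :
    qform (∑ k ∈ s, c k • M k) σ = ∑ k ∈ s, c k * qform (M k) σ := by
  simp only [qform, Matrix.sum_mulVec, Matrix.smul_mulVec, dotProduct_sum, dotProduct_smul, smul_eq_mul]

/-- The variance of the GOE free energy dominates the squared response to a polynomial field. -/
theorem sq_response_le (hn : 0 < n) (β : ℝ) (P : Polynomial ℝ) :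
    (β / n * ∫ A, gquad β P A ∂gauss (Fin n × Fin n)) ^ 2 ≤
      variance (freeE (n := n) β) (gauss (Fin n × Fin n)) *
        ∫ A, psiP P A ^ 2 ∂gauss (Fin n × Fin n) := by
  set γ := gauss (Fin n × Fin n)
  have hP : IsProbabilityMeasure γ := by unfold γ Vale.Agent.P150.gauss; infer_instance
  set s := range (P.natDegree + 1)
  have hgq : ∀ A : Dis n, gquad β P A = ∑ k ∈ s, P.coeff k * ∑ σ, gw β A σ * qform (goe A ^ k) σ := by
    intro A
    rw [gquad, Polynomial.aeval_eq_sum_range]
    simp only [qform_smul_sum, mul_sum, sum_div, gw]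
    rw [sum_comm]
    exact sum_congr rfl fun k _ => sum_congr rfl fun σ _ => by ring
  have hq : ∀ k σ, Nice fun A : Dis n => qform (goe A ^ k) σ := fun k σ => by
    simp only [qform_eq]
    exact Nice.sum _ fun i _ => Nice.sum _ fun j _ => ((Nice.const _).mul (nice_goe_pow k i j)).mul (Nice.const _)
  have hk : ∀ k, Nice fun A : Dis n => ∑ σ, gw β A σ * qform (goe A ^ k) σ := fun k =>
    Nice.sum _ fun σ _ => (nice_gw β σ).mul (hq k σ)
  set m := ∫ A, freeE β A ∂γ
  set u : Dis n → ℝ := fun A => freeE β A - m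
  have hu : Nice u := (nice_freeE β).sub (Nice.const m)
  have h1 : ∫ A, u A * psiP P A ∂γ = β / n * ∫ A, gquad β P A ∂γ := by
    rw [show (fun A => u A * psiP P A) = fun A => ∑ k ∈ s, u A * (P.coeff k * psi k A) from
      funext fun A => by rw [psiP, mul_sum]]
    simp only [hgq]
    rw [integral_finsetSum _ fun k _ => (hu.mul ((nice_psi k).const_mul _)).integrable,
      integral_finsetSum _ fun k _ => ((hk k).const_mul _).integrable, mul_sum]
    refine sum_congr rfl fun k _ => ?_
    simp only [u, sub_mul]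
    rw [integral_sub ((nice_freeE β).mul ((nice_psi k).const_mul _)).integrable
        (((nice_psi k).const_mul _).const_mul m).integrable, integral_const_mul m, integral_const_mul (P.coeff k),
      integral_const_mul (P.coeff k), integral_psi hn, mul_zero, mul_zero, sub_zero,
      show (fun A : Dis n => freeE β A * (P.coeff k * psi k A)) =
        fun A => P.coeff k * (freeE β A * psi k A) from funext fun A => by ring,
      integral_const_mul, stein_freeE hn]
    ring
  have hv : variance (freeE (n := n) β) γ = ∫ A, u A ^ 2 ∂γ :=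
    variance_eq_integral (nice_freeE β).1.aemeasurable
  rw [← h1, hv]
  have key : ∀ t : ℝ, 0 ≤ (∫ A, psiP P A ^ 2 ∂γ) * (t * t) + (-2 * ∫ A, u A * psiP P A ∂γ) * t +
      ∫ A, u A ^ 2 ∂γ := by
    intro t
    have i1 : Integrable (fun A => u A ^ 2) γ := by simpa [sq] using (hu.mul hu).integrable
    have i2 : Integrable (fun A => u A * psiP P A) γ := (hu.mul (nice_psiP P)).integrable
    have i3 : Integrable (fun A => psiP P A ^ 2) γ := by
      simpa [sq] using ((nice_psiP P).mul (nice_psiP P)).integrable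
    have : 0 ≤ ∫ A, (u A - t * psiP P A) ^ 2 ∂γ := integral_nonneg fun A => sq_nonneg _
    have e : ∀ A, (u A - t * psiP P A) ^ 2 =
        u A ^ 2 + (-2 * t) * (u A * psiP P A) + (t * t) * psiP P A ^ 2 := fun A => by ring
    simp only [e] at this
    rw [integral_add (f := fun A => u A ^ 2 + -2 * t * (u A * psiP P A)) (i1.add (i2.const_mul _))
        (i3.const_mul _), integral_add i1 (i2.const_mul _),
      integral_const_mul, integral_const_mul] at this
    linarith
  have h := discrim_le_zero key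
  rw [discrim] at h
  linarith

end Vale.Agent.P146F
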