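import Vale.Agent.P146F.Goe.Model

/-!
P146: polynomially bounded observables of the GOE array and their derivatives.
-/

namespace Vale.Agent.P146F

open MeasureTheory Matrix Finset Function
open Vale.Agent.P150 (Dis gauss PolyGrowth)

/-- Continuous, of polynomial growth. -/
def Nice {ι : Type*} [Fintype ι] (F : (ι → ℝ) → ℝ) : Prop := Continuous F ∧ PolyGrowth F

namespace Nice

variable {ι : Type*} [Fintype ι] {F G : (ι → ℝ) → ℝ}

lemma integrable (h : Nice F) : Integrable F (gauss ι) := h.2.integrable h.1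

lemma const (c : ℝ) : Nice (fun _ : ι → ℝ => c) :=
  ⟨continuous_const, |c|, 0, fun g => by simp⟩

lemma coord (i : ι) : Nice (fun g : ι → ℝ => g i) :=
  ⟨continuous_apply i, 1, 1, fun g => by
    have := single_le_sum (f := fun q => |g q|) (fun q _ => abs_nonneg _) (mem_univ i)
    rw [pow_one, one_mul]; linarith⟩

lemma one_le (g : ι → ℝ) : (1 : ℝ) ≤ 1 + ∑ q, |g q| :=
  le_add_of_nonneg_right (sum_nonneg fun _ _ => abs_nonneg _)

lemma coeff_nonneg {A : ℝ} {m : ℕ} (h : ∀ g, |F g| ≤ A * (1 + ∑ q, |g q|) ^ m) : 0 ≤ A := by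
  have := (abs_nonneg _).trans (h 0)
  simpa using this

lemma add (hF : Nice F) (hG : Nice G) : Nice fun g => F g + G g := by
  obtain ⟨A, m, hA⟩ := hF.2
  obtain ⟨B, p, hB⟩ := hG.2
  refine ⟨hF.1.add hG.1, A + B, m + p, fun g => (abs_add_le _ _).trans ?_⟩
  rw [add_mul]
  refine add_le_add ((hA g).trans ?_) ((hB g).trans ?_)
  · exact mul_le_mul_of_nonneg_left (pow_le_pow_right₀ (one_le g) (by omega)) (coeff_nonneg hA)
  · exact mul_le_mul_of_nonneg_left (pow_le_pow_right₀ (one_le g) (by omega)) (coeff_nonneg hB)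

lemma mul (hF : Nice F) (hG : Nice G) : Nice fun g => F g * G g := by
  obtain ⟨A, m, hA⟩ := hF.2
  obtain ⟨B, p, hB⟩ := hG.2
  refine ⟨hF.1.mul hG.1, A * B, m + p, fun g => ?_⟩
  rw [abs_mul]
  refine (mul_le_mul (hA g) (hB g) (abs_nonneg _) ((abs_nonneg _).trans (hA g))).trans_eq ?_
  rw [pow_add]; ring

lemma sum {α : Type*} (s : Finset α) {F : α → (ι → ℝ) → ℝ} (h : ∀ a ∈ s, Nice (F a)) :
    Nice fun g => ∑ a ∈ s, F a g := by
  classical
  induction s using Finset.induction_on with
  | empty => simpa using Nice.const (ι := ι) 0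
  | insert a s has ih =>
    simp only [sum_insert has]
    exact (h a (mem_insert_self a s)).add (ih fun b hb => h b (mem_insert_of_mem hb))

lemma const_mul (c : ℝ) (hF : Nice F) : Nice fun g => c * F g := (Nice.const c).mul hF

lemma sub (hF : Nice F) (hG : Nice G) : Nice fun g => F g - G g := by
  have := hF.add (hG.const_mul (-1))
  simpa [sub_eq_add_neg] using this

lemma div_const (c : ℝ) (hF : Nice F) : Nice fun g => F g / c := by
  simpa [div_eq_mul_inv, mul_comm] using hF.const_mul c⁻¹

lemma of_bound (hc : Continuous F) (hG : Nice G) (h : ∀ g, |F g| ≤ |G g|) : Nice F := by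
  obtain ⟨B, p, hB⟩ := hG.2
  exact ⟨hc, B, p, fun g => (h g).trans (hB g)⟩

end Nice

variable {n : ℕ}

lemma nice_goe_pow (k : ℕ) : ∀ i j : Fin n, Nice fun A : Dis n => (goe A ^ k) i j := by
  induction k with
  | zero => intro i j; simpa using Nice.const (ι := Fin n × Fin n) ((1 : Matrix (Fin n) (Fin n) ℝ) i j)
  | succ k ih =>
    intro i j
    simp only [pow_succ, Matrix.mul_apply]
    exact Nice.sum _ fun l _ => (ih i l).mul (((Nice.coord _).add (Nice.coord _)).div_const _)

lemma nice_tmom (k : ℕ) : Nice fun A : Dis n => tmom k A :=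
  (Nice.sum univ fun i _ => nice_goe_pow k i i).div_const _

/-- A symmetrised unit matrix. -/
def sym2 (a b : Fin n) : Matrix (Fin n) (Fin n) ℝ := Matrix.single a b 1 + Matrix.single b a 1

lemma goe_update (A : Dis n) (a b : Fin n) (s : ℝ) :
    goe (update A (a, b) s) = goe A + ((s - A (a, b)) / √(2 * n)) • sym2 a b := by
  ext i j
  have key : ∀ i j : Fin n, update A (a, b) s (i, j) =
      A (i, j) + (s - A (a, b)) * (Matrix.single a b (1 : ℝ) i j) := by
    intro i j
    by_cases h : (i, j) = (a, b)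
    · obtain ⟨rfl, rfl⟩ := Prod.ext_iff.1 h
      simp
    · rw [update_of_ne h, Matrix.single_apply_of_ne]
      · simp
      · exact fun e => h (Prod.ext e.1.symm e.2.symm)
  have ht : Matrix.single a b (1 : ℝ) j i = Matrix.single b a (1 : ℝ) i j := by
    simp [Matrix.single_apply, and_comm]
  simp only [goe, sym2, Matrix.of_apply, Matrix.add_apply, Matrix.smul_apply, smul_eq_mul, key, ht]
  ring

/-- The derivative of a power. -/
theorem hasDerivAt_goe_pow (A : Dis n) (a b : Fin n) (k : ℕ) : ∀ i j : Fin n,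
    HasDerivAt (fun s => (goe (update A (a, b) s) ^ k) i j)
      (((∑ l ∈ range k, goe A ^ l * sym2 a b * goe A ^ (k - 1 - l)) i j) / √(2 * n)) (A (a, b)) := by
  induction k with
  | zero =>
    intro i j
    simpa using hasDerivAt_const (A (a, b)) ((1 : Matrix (Fin n) (Fin n) ℝ) i j)
  | succ k ih =>
    intro i j
    have h1 : ∀ l : Fin n, HasDerivAt (fun s => goe (update A (a, b) s) l j)
        (sym2 a b l j / √(2 * n)) (A (a, b)) := fun l => by
      simp only [goe_update, Matrix.add_apply, Matrix.smul_apply, smul_eq_mul]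
      exact ((((hasDerivAt_id (A (a, b))).sub_const _).div_const _).mul_const _ |>.const_add _).congr_deriv
        (by ring)
    have h := HasDerivAt.fun_sum (u := univ) fun l _ => (ih i l).mul (h1 l)
    simp only [update_eq_self] at h
    refine (h.congr_deriv ?_).congr_of_eventuallyEq (Filter.Eventually.of_forall fun s => ?_)
    · rw [sum_add_distrib, sum_range_succ, Nat.add_sub_cancel, Nat.sub_self, pow_zero, mul_one,
        Matrix.add_apply, add_div]
      congr 1
      · simp only [div_mul_eq_mul_div, ← sum_div]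
        congr 1
        rw [← Matrix.mul_apply, Finset.sum_mul]
        refine congrArg (fun M : Matrix (Fin n) (Fin n) ℝ => M i j) (sum_congr rfl fun l hl => ?_)
        rw [mem_range] at hl
        rw [show k - l = k - 1 - l + 1 by omega, pow_succ]
        simp only [Matrix.mul_assoc]
      · simp only [mul_div_assoc', ← sum_div]
        rw [← Matrix.mul_apply]
    · simp only [pow_succ, Matrix.mul_apply, Pi.mul_apply]

lemma trace_mul_sym2 (M : Matrix (Fin n) (Fin n) ℝ) (a b : Fin n) :
    (M * sym2 a b).trace = M b a + M a b := by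
  simp [sym2, Matrix.mul_add, Matrix.trace_add, Matrix.trace_mul_single]

lemma goe_pow_transpose (A : Dis n) (k : ℕ) : (goe A ^ k)ᵀ = goe A ^ k := by
  rw [Matrix.transpose_pow, goe_transpose]

lemma goe_pow_symm (A : Dis n) (k : ℕ) (i j : Fin n) : (goe A ^ k) i j = (goe A ^ k) j i :=
  congrFun (congrFun (goe_pow_transpose A k) j) i

/-- The derivative of the trace of a power. -/
theorem hasDerivAt_trace_pow (A : Dis n) (a b : Fin n) (k : ℕ) :
    HasDerivAt (fun s => (goe (update A (a, b) s) ^ k).trace)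
      (2 * k * (goe A ^ (k - 1)) a b / √(2 * n)) (A (a, b)) := by
  have h := HasDerivAt.fun_sum (u := univ) fun i _ => hasDerivAt_goe_pow A a b k i i
  refine h.congr_deriv ?_
  rw [← sum_div]
  congr 1
  show Matrix.trace (∑ l ∈ range k, goe A ^ l * sym2 a b * goe A ^ (k - 1 - l)) = _
  have he : ∀ l ∈ range k, (goe A ^ l * sym2 a b * goe A ^ (k - 1 - l)).trace =
      2 * (goe A ^ (k - 1)) a b := fun l hl => by
    rw [mem_range] at hl
    rw [trace_mul_comm, ← Matrix.mul_assoc, ← pow_add, show k - 1 - l + l = k - 1 by omega,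
      trace_mul_sym2, goe_pow_symm A (k - 1) b a]
    ring
  rw [Matrix.trace_sum, sum_congr rfl he, sum_const, card_range, nsmul_eq_mul]
  ring

/-- The derivative of the entry in its own coordinate. -/
lemma goe_pow_deriv_self (A : Dis n) (a b : Fin n) (k : ℕ) :
    (∑ l ∈ range k, goe A ^ l * sym2 a b * goe A ^ (k - 1 - l)) a b =
      ∑ l ∈ range k, ((goe A ^ l) a a * (goe A ^ (k - 1 - l)) b b +
        (goe A ^ l) a b * (goe A ^ (k - 1 - l)) a b) := by
  rw [Matrix.sum_apply]
  refine sum_congr rfl fun l _ => ?_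
  simp [sym2, Matrix.mul_apply, Matrix.single_apply, ite_and, mul_add, add_mul, sum_add_distrib]

end Vale.Agent.P146F
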