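import Vale.Agent.P146F.Var.Assemble

/-!
P146: the free energy is spread out at every scale.
-/

namespace Vale.Agent.P146F

open MeasureTheory ProbabilityTheory Matrix Finset Filter Function Polynomial
open Vale.Agent.P150 (Dis gauss)
open scoped Topology

variable {n : ℕ}

/-- A bounded test function of the free energy at centre `c` and width `w`. -/
noncomputable def probe (β c w : ℝ) (A : Dis n) : ℝ := Real.arctan ((freeE β A - c) / w)

/-- The slope of `probe`, normalised to be at most one. -/
noncomputable def bump (β c w : ℝ) (A : Dis n) : ℝ := 1 / (1 + ((freeE β A - c) / w) ^ 2)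

lemma bump_nonneg (β c w : ℝ) (A : Dis n) : 0 ≤ bump β c w A := by unfold bump; positivity

lemma bump_le_one (β c w : ℝ) (A : Dis n) : bump β c w A ≤ 1 :=
  (div_le_one (by positivity)).2 (le_add_of_nonneg_right (sq_nonneg _))

lemma nice_bump (β c w : ℝ) : Nice (bump (n := n) β c w) := by
  refine Nice.of_bound ?_ (Nice.const 1) fun A => ?_
  · exact continuous_const.div (continuous_const.add
      ((((nice_freeE β).1.sub continuous_const).div_const w).pow 2)) fun A => (by positivity)
  · rw [abs_of_nonneg (bump_nonneg β c w A), abs_one]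
    exact bump_le_one β c w A

lemma nice_probe (β c w : ℝ) : Nice (probe (n := n) β c w) := by
  refine Nice.of_bound (Real.continuous_arctan.comp (((nice_freeE β).1.sub continuous_const).div_const w))
    (Nice.const (Real.pi / 2)) fun A => ?_
  rw [abs_of_pos (show 0 < Real.pi / 2 by positivity), abs_le]
  exact ⟨(Real.neg_pi_div_two_lt_arctan _).le, (Real.arctan_lt_pi_div_two _).le⟩

lemma sum_gw_qform (β : ℝ) (P : ℝ[X]) (A : Dis n) :
    gquad β P A = ∑ k ∈ range (P.natDegree + 1), P.coeff k * ∑ σ, gw β A σ * qform (goe A ^ k) σ := by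
  rw [gquad, Polynomial.aeval_eq_sum_range]
  simp only [qform_smul_sum, mul_sum, sum_div, gw]
  rw [sum_comm]
  exact sum_congr rfl fun k _ => sum_congr rfl fun σ _ => by ring

/-- Integration by parts against the probe. -/
theorem integral_probe_psiP (hn : 0 < n) (β c w : ℝ) (P : ℝ[X]) :
    ∫ A : Dis n, probe β c w A * psiP P A ∂gauss (Fin n × Fin n) =
      β / (n * w) * ∫ A : Dis n, bump β c w A * gquad β P A ∂gauss (Fin n × Fin n) := by
  set s := range (P.natDegree + 1)
  have hd : ∀ (A : Dis n) (a b : Fin n),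
      HasDerivAt (fun x => probe β c w (update A (a, b) x))
        (((bump β c w A / w) • gradFree β A) a b / √(2 * n) +
          ((bump β c w A / w) • gradFree β A) b a / √(2 * n)) (A (a, b)) := fun A a b => by
    have h := (((hasDerivAt_freeE β A a b).sub_const c).div_const w).arctan
    simp only [update_eq_self] at h
    refine h.congr_deriv ?_
    simp only [Matrix.smul_apply, smul_eq_mul, bump]
    ring
  have hq : ∀ k σ, Nice fun A : Dis n => qform (goe A ^ k) σ := fun k σ => by
    simp only [qform_eq]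
    exact Nice.sum _ fun i _ => Nice.sum _ fun j _ => ((Nice.const _).mul (nice_goe_pow k i j)).mul (Nice.const _)
  have hk : ∀ k, Nice fun A : Dis n => bump β c w A * ∑ σ, gw β A σ * qform (goe A ^ k) σ := fun k =>
    (nice_bump β c w).mul (Nice.sum _ fun σ _ => (nice_gw β σ).mul (hq k σ))
  have hG : ∀ a b, Nice fun A : Dis n => ((bump β c w A / w) • gradFree β A) a b := fun a b => by
    simp only [Matrix.smul_apply, smul_eq_mul, gradFree, Matrix.of_apply]
    exact ((nice_bump β c w).div_const w).mul ((Nice.sum univ fun σ _ => (nice_gw β σ).mul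
      (Nice.const (Vale.Agent.P166N.Spectrum.spins σ a * Vale.Agent.P166N.Spectrum.spins σ b))).const_mul _)
  have hk1 : ∀ k, ∫ A : Dis n, probe β c w A * psi k A ∂gauss (Fin n × Fin n) =
      β / (n * w) * ∫ A : Dis n, bump β c w A * ∑ σ, gw β A σ * qform (goe A ^ k) σ
        ∂gauss (Fin n × Fin n) := fun k => by
    rw [stein_pow hn k (nice_probe β c w) hG fun A a b => (hd A a b).congr_deriv (by ring)]
    simp only [Matrix.smul_mul, Matrix.trace_smul, smul_eq_mul, trace_gradFree, ← integral_const_mul]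
    exact integral_congr_ae (ae_of_all _ fun A => by ring)
  rw [show (fun A : Dis n => probe β c w A * psiP P A) =
      fun A => ∑ k ∈ s, P.coeff k * (probe β c w A * psi k A) from funext fun A => by
        rw [psiP, mul_sum]; exact sum_congr rfl fun k _ => by ring,
    show (fun A : Dis n => bump β c w A * gquad β P A) =
      fun A => ∑ k ∈ s, P.coeff k * (bump β c w A * ∑ σ, gw β A σ * qform (goe A ^ k) σ) from funext fun A => by
        rw [sum_gw_qform, mul_sum]; exact sum_congr rfl fun k _ => by ring,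
    integral_finsetSum _ fun k _ => (((nice_probe β c w).mul (nice_psi k)).const_mul _).integrable,
    integral_finsetSum _ fun k _ => ((hk k).const_mul _).integrable, mul_sum]
  refine sum_congr rfl fun k _ => ?_
  rw [integral_const_mul, integral_const_mul, hk1]
  ring

/-- Small mass in every window of width proportional to the inverse temperature. -/
theorem window_le (hn : 0 < n) {K : ℕ} (hK : 1 ≤ K) {t β ℓ κ : ℝ} (ht : 0 < t) (hβ : 0 < β) (hℓ : 0 < ℓ)
    (hψ : ∫ A : Dis n, psiP (tstP K) A ^ 2 ∂gauss (Fin n × Fin n) ≤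
      3 * ∑ k ∈ range K, 1 / ((k : ℝ) + 1))
    {e : Dis n → ℝ} (he : Nice e) (hint : ∫ A, e A ∂gauss (Fin n × Fin n) ≤ κ)
    (hpt : ∀ A, 0 ≤ e A ∧ t * (∑ k ∈ range K, 1 / ((k : ℝ) + 1)) / 512 - e A ≤ drop K t β A)
    (c : ℝ) :
    (gauss (Fin n × Fin n)).real {A | |freeE β A - c| ≤ β * ℓ} ≤
      1536 * ℓ / √(∑ k ∈ range K, 1 / ((k : ℝ) + 1)) +
        1024 * κ / (t * ∑ k ∈ range K, 1 / ((k : ℝ) + 1)) := by
  set Hs := ∑ k ∈ range K, 1 / ((k : ℝ) + 1)
  have hH : 0 < Hs := zero_lt_one.trans_le (one_le_harm hK)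
  set r := √Hs
  have hr : 0 < r := Real.sqrt_pos.2 hH
  have hr2 : r * r = Hs := Real.mul_self_sqrt hH.le
  set γ := gauss (Fin n × Fin n)
  have hP : IsProbabilityMeasure γ := by unfold γ Vale.Agent.P150.gauss; infer_instance
  set w := β * ℓ
  have hw : 0 < w := mul_pos hβ hℓ
  set g := bump (n := n) β c w
  -- the probe side is of order the square root of the harmonic sum
  have h1 : ∫ A, probe β c w A * psiP (tstP K) A ∂γ ≤ 3 * r := by
    have i2 : Nice fun A : Dis n => psiP (tstP K) A * psiP (tstP K) A := (nice_psiP _).mul (nice_psiP _)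
    refine (integral_mono ((nice_probe β c w).mul (nice_psiP _)).integrable
      ((i2.const_mul (1 / (2 * r))).add (Nice.const (4 * r / 3))).integrable fun A => ?_).trans ?_
    · have ha : |probe β c w A| ≤ 8 / 5 := by
        rw [abs_le]
        have := Real.pi_lt_d2
        constructor <;> linarith [Real.neg_pi_div_two_lt_arctan ((freeE β A - c) / w),
          Real.arctan_lt_pi_div_two ((freeE β A - c) / w),
          show probe β c w A = Real.arctan ((freeE β A - c) / w) from rfl]
      set a := probe β c w A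
      set b := psiP (tstP K) A
      have h2 : a * a ≤ 64 / 25 := by
        rw [← sq, ← sq_abs]; exact (pow_le_pow_left₀ (abs_nonneg _) ha 2).trans_eq (by norm_num)
      show a * b ≤ 1 / (2 * r) * (b * b) + 4 * r / 3
      rw [div_mul_eq_mul_div, one_mul, div_add' _ _ _ (by positivity), le_div_iff₀ (by positivity)]
      nlinarith [sq_nonneg (b - a * r), mul_le_mul_of_nonneg_right h2 (sq_nonneg r)]
    · rw [integral_add (i2.const_mul _).integrable (Nice.const _).integrable, integral_const_mul,
        integral_const, probReal_univ, one_smul]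
      have h3 : ∫ A, psiP (tstP K) A * psiP (tstP K) A ∂γ ≤ 3 * Hs := by simpa [sq] using hψ
      have h4 := mul_le_mul_of_nonneg_left h3 (show 0 ≤ 1 / (2 * r) by positivity)
      have e4 : 1 / (2 * r) * (3 * Hs) = 3 / 2 * r := by rw [← hr2]; field_simp
      linarith
  -- the response side
  have h2 : t * Hs / 512 * ∫ A, g A ∂γ - κ ≤ t / (2 * n) * ∫ A, g A * gquad β (tstP K) A ∂γ := by
    rw [← integral_const_mul]
    refine le_trans (sub_le_sub_left hint _) ?_
    rw [← integral_sub ((nice_bump β c w).const_mul _).integrable he.integrable, ← integral_const_mul]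
    refine integral_mono (((nice_bump β c w).const_mul _).sub he).integrable
      (((nice_bump β c w).mul (nice_gquad β _)).const_mul _).integrable fun A => ?_
    have hg0 := bump_nonneg β c w A
    have hg1 := bump_le_one β c w A
    have hd : drop K t β A ≤ t / (2 * n) * gquad β (tstP K) A := by
      rw [drop, div_le_iff₀ hβ]
      refine (jPress_sub_le β t (tstP K) A).trans_eq ?_
      ring
    have h3 := mul_le_mul_of_nonneg_left ((hpt A).2.trans hd) hg0
    have h4 : g A * e A ≤ e A := mul_le_of_le_one_left (hpt A).1 hg1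
    show t * Hs / 512 * g A - e A ≤ t / (2 * n) * (g A * gquad β (tstP K) A)
    linarith
  -- the window
  have h3 : γ.real {A | |freeE β A - c| ≤ w} ≤ 2 * ∫ A, g A ∂γ := by
    have hms : MeasurableSet {A : Dis n | |freeE β A - c| ≤ w} :=
      measurableSet_le ((nice_freeE β).1.sub continuous_const).abs.measurable measurable_const
    rw [← integral_indicator_one hms, ← integral_const_mul]
    refine integral_mono ((integrable_const (1 : ℝ)).indicator hms)
      ((nice_bump β c w).const_mul 2).integrable fun A => ?_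
    by_cases h : A ∈ {A : Dis n | |freeE β A - c| ≤ w}
    · rw [Set.indicator_of_mem h, Pi.one_apply]
      show 1 ≤ 2 * (1 / (1 + ((freeE β A - c) / w) ^ 2))
      rw [mul_one_div, le_div_iff₀ (by positivity), one_mul]
      have h' : ((freeE β A - c) / w) ^ 2 ≤ 1 := by
        rw [sq_le_one_iff_abs_le_one, abs_div, abs_of_pos hw, div_le_one hw]
        exact h
      linarith
    · rw [Set.indicator_of_notMem h]
      exact mul_nonneg two_pos.le (bump_nonneg β c w A)
  have hstein := integral_probe_psiP hn β c w (tstP K)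
  rw [show β / (↑n * w) * ∫ A : Dis n, bump β c w A * gquad β (tstP K) A ∂gauss (Fin n × Fin n) =
      2 / (t * ℓ) * (t / (2 * n) * ∫ A, g A * gquad β (tstP K) A ∂γ) by
    simp only [g, γ, w]; field_simp] at hstein
  rw [hstein] at h1
  rw [div_mul_eq_mul_div, div_le_iff₀ (by positivity)] at h1
  have h5 : t * Hs / 512 * ∫ A, g A ∂γ ≤ κ + 3 / 2 * r * (t * ℓ) := by linarith
  refine h3.trans ?_
  have h6 : ∫ A, g A ∂γ ≤ (κ + 3 / 2 * r * (t * ℓ)) / (t * Hs / 512) := by
    rw [le_div_iff₀ (by positivity)]; linarith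
  refine (mul_le_mul_of_nonneg_left h6 two_pos.le).trans_eq ?_
  rw [← hr2]
  field_simp
  ring

/-- Removing the diagonal. -/
theorem window_le_sk (hn : 0 < n) (β c : ℝ) {L r B : ℝ} (hβ : 0 < β) (hr : 0 < r)
    (h : (gauss (Fin n × Fin n)).real {A | |freeE β A - c| ≤ β * (L + r)} ≤ B) :
    (gauss (Vale.Agent.P146.Edge n)).real {g | |Vale.Agent.P146.F β g - c| ≤ β * L} ≤
      B + 1 / (2 * r ^ 2) := by
  have hFc : Continuous (Vale.Agent.P146.F (n := n) β) := by
    rw [show Vale.Agent.P146.F (n := n) β = fun g => Vale.Agent.P146.G β g + (n : ℝ) * Real.log 2 from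
      funext fun g => (sub_add_cancel _ _).symm]
    exact (Vale.Agent.P146.continuous_G β).add continuous_const
  have hup : Measurable (upper (n := n)) := by unfold upper Vale.Agent.P150.symmArray; fun_prop
  set γ := gauss (Fin n × Fin n)
  have hP : IsProbabilityMeasure γ := by unfold γ Vale.Agent.P150.gauss; infer_instance
  have hms : MeasurableSet {g : Vale.Agent.P146.Edge n → ℝ | |Vale.Agent.P146.F β g - c| ≤ β * L} :=
    measurableSet_le (hFc.sub continuous_const).abs.measurable measurable_const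
  rw [← gauss_map_upper n, map_measureReal_apply hup hms]
  have hsub : upper (n := n) ⁻¹' {g | |Vale.Agent.P146.F β g - c| ≤ β * L} ⊆
      {A | |freeE β A - c| ≤ β * (L + r)} ∪ {A | (2 * r) ^ 2 ≤ (goe A).trace ^ 2} := by
    intro A hA
    by_cases h2 : (2 * r) ^ 2 ≤ (goe A).trace ^ 2
    · exact Or.inr h2
    · left
      rw [not_le, sq_lt_sq, abs_of_pos (by positivity : 0 < 2 * r)] at h2
      show |freeE β A - c| ≤ _
      rw [freeE_eq, show Vale.Agent.P146.F β (upper A) + β / 2 * (goe A).trace - c =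
        (Vale.Agent.P146.F β (upper A) - c) + β / 2 * (goe A).trace by ring]
      refine (abs_add_le _ _).trans ?_
      rw [abs_mul, abs_of_pos (half_pos hβ), mul_add]
      refine add_le_add hA ?_
      nlinarith
  refine (measureReal_mono hsub).trans ((measureReal_union_le _ _).trans (add_le_add h ?_))
  have ht : Nice fun A : Dis n => (goe A).trace := by simpa using nice_trace_pow (n := n) 1
  have hm := mul_meas_ge_le_integral_of_nonneg (μ := γ) (f := fun A : Dis n => (goe A).trace ^ 2)
    (ae_of_all _ fun A => sq_nonneg _) ((ht.mul ht).integrable.congr (ae_of_all _ fun A => (sq _).symm))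
    ((2 * r) ^ 2)
  rw [integral_trace_sq hn] at hm
  rw [le_div_iff₀ (by positivity)]
  linarith

/-- The free energy has vanishing mass in every window, uniformly in the temperature. -/
theorem eventually_window_small (hM : MomLimit) (hP : ∀ β : ℝ, 1 ≤ β → PressureLimit β)
    (hG : ∀ β : ℝ, 1 ≤ β → NoGap β) (L : ℝ) {ε : ℝ} (hε : 0 < ε) :
    ∃ δ > 0, δ ≤ 1 / 2 ∧ ∀ᶠ n : ℕ in atTop, ∀ β : ℝ, 1 - δ ≤ β → ∀ c : ℝ,
      (gauss (Vale.Agent.P146.Edge n)).real {g | |Vale.Agent.P146.F β g - c| ≤ β * L} ≤ ε := by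
  obtain ⟨r, hr, hrε⟩ : ∃ r : ℝ, 0 < r ∧ 1 / (2 * r ^ 2) ≤ ε / 3 := by
    refine ⟨2 / ε + 2, by positivity, ?_⟩
    rw [div_le_iff₀ (by positivity)]
    have h : ε * (2 / ε + 2) = 2 + 2 * ε := by field_simp
    nlinarith
  set ℓ := max L 0 + r
  have hℓ : 0 < ℓ := add_pos_of_nonneg_of_pos (le_max_right _ _) hr
  obtain ⟨K, hK, hK1⟩ := ((Real.tendsto_sum_range_one_div_nat_succ_atTop.eventually_ge_atTop
    ((1536 * ℓ * (3 / ε)) ^ 2)).and (eventually_ge_atTop 1)).exists
  set Hs := ∑ k ∈ range K, 1 / ((k : ℝ) + 1)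
  have hH : 1 ≤ Hs := one_le_harm hK1
  obtain ⟨t, ht, δ, hδ, hδ2, hdrop⟩ := exists_drop hP hG hK1
  refine ⟨δ, hδ, hδ2, ?_⟩
  filter_upwards [eventually_gt_atTop 0, hdrop (ε / 3 * (t * Hs) / 1024) (by positivity),
    (tendsto_psiP_sq hM (tstP K)).eventually_le_const
      (show 2 * ∫ x, (tstP K).eval x * (vop (tstP K)).eval x ∂sc < 3 * Hs by
        rw [integral_tstP_vop]; show 2 * Hs < 3 * Hs; linarith)] with n hn hd hψ β hβ c
  have hβ0 : 0 < β := by linarith
  obtain ⟨e, he, hint, hpt⟩ := hd β hβ
  have h := window_le_sk (L := L) hn β c hβ0 hr ((measureReal_mono (fun A (hA : |freeE β A - c| ≤ _) =>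
    hA.trans (mul_le_mul_of_nonneg_left (show L + r ≤ ℓ by
      show L + r ≤ max L 0 + r
      linarith [le_max_left L 0]) hβ0.le))
    (measure_ne_top _ _)).trans (window_le hn hK1 ht hβ0 hℓ hψ he hint hpt c))
  have h1 : 1536 * ℓ / √Hs ≤ ε / 3 := by
    rw [div_le_iff₀ (by positivity)]
    have : 1536 * ℓ * (3 / ε) ≤ √Hs := Real.le_sqrt_of_sq_le hK
    calc 1536 * ℓ = ε / 3 * (1536 * ℓ * (3 / ε)) := by field_simp
      _ ≤ _ := mul_le_mul_of_nonneg_left this (by positivity)
  have h2 : 1024 * (ε / 3 * (t * Hs) / 1024) / (t * Hs) = ε / 3 := by field_simp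
  linarith

/-- A variance bound from a window bound. -/
theorem variance_ge_of_window {β L : ℝ} (hL : 0 ≤ β * L) {f : (Vale.Agent.P146.Edge n → ℝ) → ℝ}
    (hf : Nice f)
    (h : ∀ c : ℝ, (gauss (Vale.Agent.P146.Edge n)).real {g | |f g - c| ≤ β * L} ≤ 1 / 2) :
    (β * L) ^ 2 / 2 ≤ variance f (gauss (Vale.Agent.P146.Edge n)) := by
  set μ := gauss (Vale.Agent.P146.Edge n)
  have hP : IsProbabilityMeasure μ := by unfold μ Vale.Agent.P150.gauss; infer_instance
  set m := ∫ g, f g ∂μ
  rw [variance_eq_integral hf.1.aemeasurable]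
  have hms : MeasurableSet {g : Vale.Agent.P146.Edge n → ℝ | |f g - m| ≤ β * L} :=
    measurableSet_le (hf.1.sub continuous_const).abs.measurable measurable_const
  have h1 : (1 : ℝ) / 2 ≤ μ.real {g : Vale.Agent.P146.Edge n → ℝ | |f g - m| ≤ β * L}ᶜ := by
    rw [probReal_compl_eq_one_sub hms]
    linarith [h m]
  refine le_trans ?_ (integral_mono ((integrable_const ((β * L) ^ 2)).indicator hms.compl)
    (((hf.sub (Nice.const m)).mul (hf.sub (Nice.const m))).integrable.congr
      (ae_of_all _ fun g => (sq _).symm)) fun g => ?_)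
  · rw [integral_indicator_const _ hms.compl, smul_eq_mul]
    refine le_trans (le_of_eq ?_) (mul_le_mul_of_nonneg_right h1 (sq_nonneg _))
    ring
  · by_cases hg : g ∈ {g : Vale.Agent.P146.Edge n → ℝ | |f g - m| ≤ β * L}ᶜ
    · rw [Set.indicator_of_mem hg]
      simp only [Set.mem_compl_iff, Set.mem_ofPred_eq, not_le] at hg
      rw [← sq_abs (f g - m)]
      exact pow_le_pow_left₀ hL hg.le 2
    · rw [Set.indicator_of_notMem hg]
      exact sq_nonneg _

end Vale.Agent.P146F
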