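import Vale.Agent.P146F.Var.Nice

/-!
P146: Gaussian integration by parts along the vector field of a power of the GOE matrix.
-/

namespace Vale.Agent.P146F

open MeasureTheory Matrix Finset Function
open Vale.Agent.P150 (Dis gauss gauss_ibp)
open Vale.Agent.P166N.Spectrum (spins)

variable {n : ℕ}

/-- The divergence of the field of the `k`th power, scaled. -/
noncomputable def psi (k : ℕ) (A : Dis n) : ℝ :=
  (goe A ^ (k + 1)).trace - (∑ l ∈ range k, (goe A ^ l).trace * (goe A ^ (k - 1 - l)).trace +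
    k * (goe A ^ (k - 1)).trace) / n

lemma nice_trace_pow (k : ℕ) : Nice fun A : Dis n => (goe A ^ k).trace :=
  Nice.sum univ fun i _ => nice_goe_pow k i i

lemma nice_psi (k : ℕ) : Nice (psi (n := n) k) :=
  (nice_trace_pow (k + 1)).sub (((Nice.sum _ fun l _ => (nice_trace_pow l).mul (nice_trace_pow _)).add
    ((nice_trace_pow _).const_mul _)).div_const _)

lemma sum_coord_pow (hn : 0 < n) (A : Dis n) (k : ℕ) :
    ∑ p : Fin n × Fin n, A p * (goe A ^ k) p.1 p.2 = √(2 * n) / 2 * (goe A ^ (k + 1)).trace := by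
  have hs : √(2 * (n : ℝ)) ≠ 0 :=
    (Real.sqrt_pos.2 (mul_pos two_pos (Nat.cast_pos.2 hn))).ne'
  have e : (goe A ^ (k + 1)).trace =
      ∑ i, ∑ j, (goe A ^ k) i j * ((A (j, i) + A (i, j)) / √(2 * n)) := by
    simp only [pow_succ, Matrix.trace, Matrix.diag_apply, Matrix.mul_apply]
    rfl
  have e2 : ∑ i, ∑ j, (goe A ^ k) i j * A (j, i) = ∑ i, ∑ j, (goe A ^ k) i j * A (i, j) := by
    rw [sum_comm]
    exact sum_congr rfl fun i _ => sum_congr rfl fun j _ => by rw [goe_pow_symm A k j i]
  have e3 : (goe A ^ (k + 1)).trace = 2 / √(2 * n) * ∑ i, ∑ j, (goe A ^ k) i j * A (i, j) := by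
    rw [e]
    simp only [mul_div_assoc', mul_add, ← sum_div, sum_add_distrib]
    rw [e2]
    ring
  rw [e3, Fintype.sum_prod_type, ← mul_assoc, show √(2 * (n : ℝ)) / 2 * (2 / √(2 * n)) = 1 by field_simp,
    one_mul]
  exact sum_congr rfl fun i _ => sum_congr rfl fun j _ => mul_comm _ _

lemma sum_deriv_self (A : Dis n) (k : ℕ) :
    ∑ p : Fin n × Fin n, ∑ l ∈ range k, ((goe A ^ l) p.1 p.1 * (goe A ^ (k - 1 - l)) p.2 p.2 +
      (goe A ^ l) p.1 p.2 * (goe A ^ (k - 1 - l)) p.1 p.2) =
    ∑ l ∈ range k, (goe A ^ l).trace * (goe A ^ (k - 1 - l)).trace + k * (goe A ^ (k - 1)).trace := by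
  rw [sum_comm]
  simp only [sum_add_distrib]
  congr 1
  · refine sum_congr rfl fun l _ => ?_
    rw [Fintype.sum_prod_type, Matrix.trace, Matrix.trace, sum_mul_sum]
    rfl
  · rw [sum_congr rfl fun l hl => ?_, sum_const, card_range, nsmul_eq_mul]
    rw [mem_range] at hl
    rw [Fintype.sum_prod_type]
    show ∑ i, ∑ j, _ = (goe A ^ (k - 1)).trace
    rw [show k - 1 = l + (k - 1 - l) by omega, pow_add, show l + (k - 1 - l) - l = k - 1 - l by omega,
      Matrix.trace]
    refine sum_congr rfl fun i _ => ?_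
    rw [Matrix.diag_apply, Matrix.mul_apply]
    exact sum_congr rfl fun j _ => by rw [goe_pow_symm A (k - 1 - l) j i]

/-- `E[F ψ] = (2/n) E tr (∇F X^k)`. -/
theorem stein_pow (hn : 0 < n) (k : ℕ) {F : Dis n → ℝ} {G : Dis n → Matrix (Fin n) (Fin n) ℝ}
    (hF : Nice F) (hG : ∀ a b, Nice fun A => G A a b)
    (hd : ∀ A a b, HasDerivAt (fun s => F (update A (a, b) s)) ((G A a b + G A b a) / √(2 * n))
      (A (a, b))) :
    ∫ A, F A * psi k A ∂gauss (Fin n × Fin n) =
      2 / n * ∫ A, (G A * goe A ^ k).trace ∂gauss (Fin n × Fin n) := by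
  have hn' : (0 : ℝ) < n := Nat.cast_pos.2 hn
  set r := √(2 * (n : ℝ)) with hr
  have hr2 : r * r = 2 * n := Real.mul_self_sqrt (by positivity)
  have hr0 : 0 < r := Real.sqrt_pos.2 (by positivity)
  set D : Dis n → Fin n × Fin n → ℝ := fun A p =>
    ∑ l ∈ range k, ((goe A ^ l) p.1 p.1 * (goe A ^ (k - 1 - l)) p.2 p.2 +
      (goe A ^ l) p.1 p.2 * (goe A ^ (k - 1 - l)) p.1 p.2) with hDdef
  set G' : Dis n → Fin n × Fin n → ℝ := fun A p =>
    (goe A ^ k) p.1 p.2 * (G A p.1 p.2 + G A p.2 p.1) / r + F A * D A p / r with hG'def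
  have hD : ∀ p, Nice fun A => D A p := fun p =>
    Nice.sum _ fun l _ => ((nice_goe_pow _ _ _).mul (nice_goe_pow _ _ _)).add
      ((nice_goe_pow _ _ _).mul (nice_goe_pow _ _ _))
  have hG'n : ∀ p, Nice fun A => G' A p := fun p =>
    (((nice_goe_pow k _ _).mul ((hG _ _).add (hG _ _))).div_const _).add
      ((hF.mul (hD p)).div_const _)
  have key : ∀ p : Fin n × Fin n, ∫ A, A p * (F A * (goe A ^ k) p.1 p.2) ∂gauss (Fin n × Fin n) =
      ∫ A, G' A p ∂gauss (Fin n × Fin n) := by
    rintro ⟨a, b⟩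
    refine gauss_ibp (a, b) (hF.mul (nice_goe_pow k a b)).1 (hG'n (a, b)).1 (fun A => ?_)
      (hF.mul (nice_goe_pow k a b)).2 (hG'n (a, b)).2
    refine ((hd A a b).mul (hasDerivAt_goe_pow A a b k a b)).congr_deriv ?_
    simp only [update_eq_self, goe_pow_deriv_self, hG'def, hDdef, ← hr]
    ring
  have hL : ∑ p : Fin n × Fin n, ∫ A, A p * (F A * (goe A ^ k) p.1 p.2) ∂gauss (Fin n × Fin n) =
      r / 2 * ∫ A, F A * (goe A ^ (k + 1)).trace ∂gauss (Fin n × Fin n) := by
    rw [← integral_finsetSum (f := fun p A => A p * (F A * (goe A ^ k) p.1 p.2)) _ fun p _ =>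
      ((Nice.coord p).mul (hF.mul (nice_goe_pow k _ _))).integrable, ← integral_const_mul]
    refine integral_congr_ae (ae_of_all _ fun A => ?_)
    show ∑ p : Fin n × Fin n, A p * (F A * (goe A ^ k) p.1 p.2) = r / 2 * (F A * (goe A ^ (k + 1)).trace)
    rw [show r / 2 * (F A * (goe A ^ (k + 1)).trace) = F A * (r / 2 * (goe A ^ (k + 1)).trace) by ring,
      ← sum_coord_pow hn A k, mul_sum]
    exact sum_congr rfl fun p _ => by ring
  set T : Dis n → ℝ := fun A => ∑ l ∈ range k, (goe A ^ l).trace * (goe A ^ (k - 1 - l)).trace +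
    k * (goe A ^ (k - 1)).trace with hT
  have hTn : Nice T := (Nice.sum _ fun l _ => (nice_trace_pow l).mul (nice_trace_pow _)).add
    ((nice_trace_pow _).const_mul _)
  have hGM : Nice fun A => (G A * goe A ^ k).trace :=
    Nice.sum univ fun i _ => by
      simp only [Matrix.diag_apply, Matrix.mul_apply]
      exact Nice.sum univ fun j _ => (hG i j).mul (nice_goe_pow k j i)
  have hR : ∑ p : Fin n × Fin n, ∫ A, G' A p ∂gauss (Fin n × Fin n) =
      2 / r * ∫ A, (G A * goe A ^ k).trace ∂gauss (Fin n × Fin n) +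
        1 / r * ∫ A, F A * T A ∂gauss (Fin n × Fin n) := by
    rw [← integral_finsetSum (f := fun p A => G' A p) _ fun p _ => (hG'n p).integrable, ← integral_const_mul,
      ← integral_const_mul, ← integral_add (hGM.const_mul _).integrable ((hF.mul hTn).const_mul _).integrable]
    refine integral_congr_ae (ae_of_all _ fun A => ?_)
    show ∑ p : Fin n × Fin n, G' A p = _
    simp only [hG'def, sum_add_distrib, ← sum_div, ← mul_sum]
    have h1 : ∑ p : Fin n × Fin n, (goe A ^ k) p.1 p.2 * (G A p.1 p.2 + G A p.2 p.1) =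
        2 * (G A * goe A ^ k).trace := by
      simp only [Fintype.sum_prod_type, mul_add, sum_add_distrib, two_mul, Matrix.trace, Matrix.diag_apply,
        Matrix.mul_apply]
      congr 1
      · exact sum_congr rfl fun i _ => sum_congr rfl fun j _ => by rw [mul_comm, goe_pow_symm A k j i]
      · rw [sum_comm]
        exact sum_congr rfl fun i _ => sum_congr rfl fun j _ => mul_comm _ _
    have h2 : ∑ p : Fin n × Fin n, D A p = T A := sum_deriv_self A k
    rw [h1, h2]
    ring
  have h := sum_congr rfl fun p (_ : p ∈ (univ : Finset (Fin n × Fin n))) => key p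
  rw [hL, hR] at h
  have h2 : ∫ A, F A * psi k A ∂gauss (Fin n × Fin n) =
      (∫ A, F A * (goe A ^ (k + 1)).trace ∂gauss (Fin n × Fin n)) -
        1 / n * ∫ A, F A * T A ∂gauss (Fin n × Fin n) := by
    rw [← integral_const_mul, ← integral_sub (hF.mul (nice_trace_pow _)).integrable
      ((hF.mul hTn).const_mul _).integrable]
    exact integral_congr_ae (ae_of_all _ fun A => by simp only [psi, hT]; ring)
  rw [h2]
  field_simp at h ⊢
  rw [sq, hr2] at h
  linarith

/-- `E ψ = 0`. -/
lemma integral_psi (hn : 0 < n) (k : ℕ) : ∫ A, psi k A ∂gauss (Fin n × Fin n) = 0 := by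
  have h := stein_pow hn k (F := fun _ : Dis n => 1) (G := fun _ => 0) (Nice.const 1)
    (fun _ _ => by simpa using Nice.const (ι := Fin n × Fin n) 0) fun A a b => by
      simpa using hasDerivAt_const (A (a, b)) (1 : ℝ)
  simpa using h

lemma qform_eq (M : Matrix (Fin n) (Fin n) ℝ) (σ : Fin n → Bool) :
    qform M σ = ∑ i, ∑ j, spins σ i * M i j * spins σ j := by
  simp only [qform, dotProduct, Matrix.mulVec, mul_sum, mul_assoc]

lemma qform_add_smul (M S : Matrix (Fin n) (Fin n) ℝ) (c : ℝ) (σ : Fin n → Bool) :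
    qform (M + c • S) σ = qform M σ + c * qform S σ := by
  simp [qform, Matrix.add_mulVec, Matrix.smul_mulVec, dotProduct_add, dotProduct_smul]

lemma qform_sym2 (a b : Fin n) (σ : Fin n → Bool) :
    qform (sym2 a b) σ = 2 * (spins σ a * spins σ b) := by
  simp only [qform_eq, sym2, Matrix.add_apply, mul_add, add_mul, sum_add_distrib]
  simp [Matrix.single_apply, ite_and]
  ring

lemma zsum_pos (β : ℝ) (J : Matrix (Fin n) (Fin n) ℝ) : 0 < zsum β J :=
  sum_pos (fun _ _ => Real.exp_pos _) univ_nonempty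

/-- The Gibbs weight of a configuration. -/
noncomputable def gw (β : ℝ) (A : Dis n) (σ : Fin n → Bool) : ℝ :=
  Real.exp (β / 2 * qform (goe A) σ) / zsum β (goe A)

lemma sum_gw (β : ℝ) (A : Dis n) : ∑ σ, gw β A σ = 1 := by
  simp only [gw, ← sum_div]
  exact div_self (zsum_pos β _).ne'

lemma continuous_qform_goe (σ : Fin n → Bool) : Continuous fun A : Dis n => qform (goe A) σ := by
  simp only [qform_eq, goe, Matrix.of_apply]
  fun_prop

lemma continuous_gw (β : ℝ) (σ : Fin n → Bool) : Continuous fun A : Dis n => gw β A σ :=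
  (Real.continuous_exp.comp (continuous_const.mul (continuous_qform_goe σ))).div
    (continuous_finsetSum _ fun τ _ => Real.continuous_exp.comp
      (continuous_const.mul (continuous_qform_goe τ))) fun _ => (zsum_pos β _).ne'

lemma nice_gw (β : ℝ) (σ : Fin n → Bool) : Nice fun A : Dis n => gw β A σ :=
  Nice.of_bound (continuous_gw β σ) (Nice.const 1) fun A => by
    have h0 : ∀ τ, 0 ≤ gw β A τ := fun τ => div_nonneg (Real.exp_pos _).le (zsum_pos β _).le
    rw [abs_of_nonneg (h0 σ), abs_one, ← sum_gw β A]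
    exact single_le_sum (fun τ _ => h0 τ) (mem_univ σ)

/-- The gradient of the free energy. -/
noncomputable def gradFree (β : ℝ) (A : Dis n) : Matrix (Fin n) (Fin n) ℝ :=
  Matrix.of fun a b => β / 2 * ∑ σ, gw β A σ * (spins σ a * spins σ b)

lemma hasDerivAt_freeE (β : ℝ) (A : Dis n) (a b : Fin n) :
    HasDerivAt (fun s => freeE β (update A (a, b) s))
      ((gradFree β A a b + gradFree β A b a) / √(2 * n)) (A (a, b)) := by
  simp only [freeE, zsum, goe_update, qform_add_smul, qform_sym2]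
  have hd : ∀ σ : Fin n → Bool, HasDerivAt
      (fun s => Real.exp (β / 2 * (qform (goe A) σ +
        (s - A (a, b)) / √(2 * n) * (2 * (spins σ a * spins σ b)))))
      (Real.exp (β / 2 * qform (goe A) σ) * (β / 2 * (1 / √(2 * n) * (2 * (spins σ a * spins σ b)))))
      (A (a, b)) := fun σ => by
    have h := ((((((hasDerivAt_id (A (a, b))).sub_const (A (a, b))).div_const (√(2 * n))).mul_const
      (2 * (spins σ a * spins σ b))).const_add (qform (goe A) σ)).const_mul (β / 2)).exp
    simpa using h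
  have h := (HasDerivAt.fun_sum (u := univ) fun σ _ => hd σ).log
    (by simpa [zsum] using (zsum_pos β (goe A)).ne')
  refine h.congr_deriv ?_
  simp only [sub_self, zero_div, zero_mul, add_zero, gradFree, gw, zsum, Matrix.of_apply, sum_div,
    mul_sum, ← sum_add_distrib]
  exact sum_congr rfl fun σ _ => by ring

lemma nice_freeE (β : ℝ) : Nice (freeE (n := n) β) := by
  refine Nice.of_bound (G := fun A : Dis n => n * Real.log 2 +
      |β| / 2 * ∑ i : Fin n, ∑ j : Fin n, (|A (i, j)| + |A (j, i)|)) ?_ ?_ fun A => ?_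
  · exact (continuous_finsetSum _ fun τ _ => Real.continuous_exp.comp
      (continuous_const.mul (continuous_qform_goe τ))).log fun _ => (zsum_pos β _).ne'
  · refine (Nice.const _).add (Nice.const_mul _ (Nice.sum _ fun i _ => Nice.sum _ fun j _ => ?_))
    exact (Nice.of_bound (continuous_apply (i, j)).abs (Nice.coord (i, j)) fun g => (abs_abs _).le).add
      (Nice.of_bound (continuous_apply (j, i)).abs (Nice.coord (j, i)) fun g => (abs_abs _).le)
  · set B := ∑ i : Fin n, ∑ j : Fin n, (|A (i, j)| + |A (j, i)|)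
    have hB : 0 ≤ B := sum_nonneg fun i _ => sum_nonneg fun j _ => by positivity
    have hq : ∀ σ, |β / 2 * qform (goe A) σ| ≤ |β| / 2 * B := fun σ => by
      rw [abs_mul, abs_div, abs_two, qform_eq]
      refine mul_le_mul_of_nonneg_left ((abs_sum_le_sum_abs _ _).trans (sum_le_sum fun i _ =>
        (abs_sum_le_sum_abs _ _).trans (sum_le_sum fun j _ => ?_))) (by positivity)
      have hs : ∀ i, |spins σ i| = 1 := fun i => by
        cases hb : σ i <;> simp [Vale.Agent.P166N.Spectrum.spins, Vale.Agent.P166.spin, hb]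
      rw [abs_mul, abs_mul, hs, hs, one_mul, mul_one, goe, Matrix.of_apply, abs_div,
        abs_of_nonneg (Real.sqrt_nonneg _)]
      refine (div_le_self (abs_nonneg _) (Real.one_le_sqrt.2 ?_)).trans (abs_add_le _ _)
      have : (1 : ℝ) ≤ n := Nat.one_le_cast.2 (Fin.pos i)
      linarith
    have hc : (Fintype.card (Fin n → Bool) : ℝ) = 2 ^ n := by simp
    have h2 : (0 : ℝ) < 2 ^ n := by positivity
    have lo : 2 ^ n * Real.exp (-(|β| / 2 * B)) ≤ zsum β (goe A) := by
      rw [← hc, ← nsmul_eq_mul, ← card_univ, ← sum_const]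
      exact sum_le_sum fun σ _ => Real.exp_le_exp.2 (abs_le.1 (hq σ)).1
    have hi : zsum β (goe A) ≤ 2 ^ n * Real.exp (|β| / 2 * B) := by
      rw [← hc, ← nsmul_eq_mul, ← card_univ, ← sum_const]
      exact sum_le_sum fun σ _ => Real.exp_le_exp.2 (abs_le.1 (hq σ)).2
    have l1 := Real.log_le_log (by positivity) lo
    have l2 := Real.log_le_log (zsum_pos β _) hi
    rw [Real.log_mul h2.ne' (Real.exp_pos _).ne', Real.log_exp, Real.log_pow] at l1 l2
    have hl : 0 ≤ (n : ℝ) * Real.log 2 := mul_nonneg (Nat.cast_nonneg n) (Real.log_nonneg one_le_two)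
    show |freeE β A| ≤ _
    rw [abs_of_nonneg (add_nonneg hl (mul_nonneg (by positivity) hB)), abs_le, freeE]
    constructor <;> linarith

lemma trace_gradFree (β : ℝ) (A : Dis n) (M : Matrix (Fin n) (Fin n) ℝ) :
    (gradFree β A * M).trace = β / 2 * ∑ σ, gw β A σ * qform M σ := by
  simp only [qform_eq, mul_sum, Matrix.trace, Matrix.diag_apply, Matrix.mul_apply, gradFree,
    Matrix.of_apply, sum_mul]
  rw [sum_congr rfl fun i _ => sum_comm, sum_comm]
  refine sum_congr rfl fun σ _ => ?_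
  rw [sum_comm]
  exact sum_congr rfl fun i _ => sum_congr rfl fun j _ => by ring

/-- `E[F ψ] = β E⟨σᵀ X^k σ⟩ / n`. -/
theorem stein_freeE (hn : 0 < n) (β : ℝ) (k : ℕ) :
    ∫ A, freeE β A * psi k A ∂gauss (Fin n × Fin n) =
      β / n * ∫ A, (∑ σ, gw β A σ * qform (goe A ^ k) σ) ∂gauss (Fin n × Fin n) := by
  have hg : ∀ a b, Nice fun A : Dis n => gradFree β A a b := fun a b =>
    (Nice.sum univ fun σ _ => (nice_gw β σ).mul (Nice.const (spins σ a * spins σ b))).const_mul _
  rw [stein_pow hn k (nice_freeE β) hg fun A a b => hasDerivAt_freeE β A a b]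
  simp only [trace_gradFree, integral_const_mul]
  ring

end Vale.Agent.P146F
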